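import Vale.Agent.P210F.Alg
import Mathlib.Analysis.SpecialFunctions.Log.Basic

/-!
# P223B: the real inequalities of the amplification
-/

open Vale.Agent.P210F.Al

noncomputable section

namespace Vale.Agent.P223B

/-- the accumulated gain -/
def Gy (τ R θ q E k y : ℝ) : ℝ :=
  τ ^ 2 * R * (y ^ 3 - 1) / 6 - (1 + 2 * θ) * (τ * y ^ 2) * E - k * (128 * y ^ 2 * q / R)

theorem Gy_step {τ R θ q ρ E Z B k : ℝ} (hk : 0 ≤ k) (hτ : 0 < τ) (hR : 0 < R) (hθ : 0 ≤ θ)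
    (hq : 0 ≤ q) (h0 : 0 ≤ ρ) (hE : 0 ≤ E) (h1 : ρ + Z ^ 2 < R) :
    Gy τ R θ q (E + B) (k + 1) (xf R (ρ + Z ^ 2)) ≤ Gy τ R θ q E k (xf R ρ) +
      ((τ * xf R (ρ + Z ^ 2) ^ 2) ^ 2 * Z ^ 2 / 2 - (1 + 2 * θ) * (τ * xf R (ρ + Z ^ 2) ^ 2) * B -
        128 * xf R (ρ + Z ^ 2) ^ 2 * q / R) := by
  have hZ := sq_nonneg Z
  have a1 := xf_ge h0 (by linarith : ρ < R)
  have a2 := xf_mono hR.le (by linarith : ρ ≤ ρ + Z ^ 2) h1
  have a3 : R * (xf R (ρ + Z ^ 2) - xf R ρ) = xf R ρ * xf R (ρ + Z ^ 2) * Z ^ 2 := by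
    have : R - ρ ≠ 0 := by linarith
    have : R - (ρ + Z ^ 2) ≠ 0 := by linarith
    unfold xf; field_simp; ring
  unfold Gy
  set y := xf R (ρ + Z ^ 2)
  set x := xf R ρ
  have x0 : 0 ≤ x := by linarith
  have b1 : R * (y ^ 3 - x ^ 3) ≤ 3 * y ^ 4 * Z ^ 2 := by
    calc R * (y ^ 3 - x ^ 3) = R * (y - x) * (y ^ 2 + y * x + x ^ 2) := by ring
      _ = x * y * Z ^ 2 * (y ^ 2 + y * x + x ^ 2) := by rw [a3]
      _ ≤ y * y * Z ^ 2 * (y ^ 2 + y * y + y ^ 2) := by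
        have : 0 ≤ y := by linarith
        gcongr
      _ = _ := by ring
  have b2 : (1 + 2 * θ) * (τ * x ^ 2) * E ≤ (1 + 2 * θ) * (τ * y ^ 2) * E := by gcongr
  have b3 : k * (128 * x ^ 2 * q / R) ≤ k * (128 * y ^ 2 * q / R) := by gcongr
  have b4 := mul_le_mul_of_nonneg_left b1 (sq_nonneg τ)
  linarith

theorem Gy_succ {τ R θ q E k y : ℝ} (hR : 0 < R) (hq : 0 ≤ q) :
    Gy τ R θ q E (k + 1) y ≤ Gy τ R θ q E k y := by
  have : 0 ≤ 128 * y ^ 2 * q / R := by positivity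
  unfold Gy
  linarith

/-- the lower bound without the bad zone -/
theorem Gy_ge {τ R θ p y : ℝ} (hτ : 0 < τ) (hθ : 0 < θ) (θ1 : θ ≤ 1 / 2) (hp : 0 ≤ p)
    (hc : 256 * (1 + p) ≤ θ * τ * R) (hy : 1 ≤ y) :
    -((1 + 2 * θ) * τ * p) ≤ τ ^ 2 * R * (y ^ 3 - 1) / 12 - (1 + 2 * θ) * (τ * y ^ 2) * p := by
  have a0 : 0 ≤ τ * R := by
    by_contra h
    nlinarith [mul_pos hθ (neg_pos.2 (not_le.1 h))]
  have a1 : 512 * p ≤ τ * R := by nlinarith [mul_le_mul_of_nonneg_right θ1 a0]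
  have a2 : 0 ≤ y ^ 2 - 1 := by nlinarith
  have a3 : y ^ 2 - 1 ≤ y ^ 3 - 1 := by nlinarith
  have a4 : (1 + 2 * θ) * p * (y ^ 2 - 1) ≤ τ * R / 12 * (y ^ 3 - 1) :=
    mul_le_mul (by nlinarith) a3 a2 (by positivity)
  nlinarith [mul_le_mul_of_nonneg_left a4 hτ.le]

/-- the cost of the bad zone -/
theorem bad {δ K y φ : ℝ} (hδ : 0 < δ) (hK : 0 ≤ K) (hy : 1 ≤ y) (φ0 : 0 ≤ φ) (φ1 : φ ≤ 1) :
    K * y ^ 2 * φ ≤ δ * (y ^ 3 - 1) + K * (2 + 2 * K / δ) ^ 2 * φ := by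
  have a0 : 0 ≤ 2 * K / δ := by positivity
  rcases le_total y (2 + 2 * K / δ) with h | h
  · have : K * y ^ 2 * φ ≤ K * (2 + 2 * K / δ) ^ 2 * φ := by gcongr
    have : 0 ≤ δ * (y ^ 3 - 1) := mul_nonneg hδ.le (by nlinarith [one_le_pow₀ hy (n := 3)])
    linarith
  · have a1 : 2 * K ≤ y * δ := (div_le_iff₀ hδ).1 (by linarith)
    have a2 : K * y ^ 2 * φ ≤ y * δ / 2 * y ^ 2 * 1 := by gcongr; linarith
    have a3 : 2 ^ 3 ≤ y ^ 3 := by gcongr; linarith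
    have : 0 ≤ K * (2 + 2 * K / δ) ^ 2 * φ := by positivity
    nlinarith

theorem sq_ge {a b η : ℝ} (η0 : 0 < η) : (1 - η) * a ^ 2 - (b - a) ^ 2 / η ≤ b ^ 2 := by
  have : (b - a) ^ 2 / η * η = (b - a) ^ 2 := div_mul_cancel₀ _ η0.ne'
  have h : 0 ≤ (b ^ 2 - ((1 - η) * a ^ 2 - (b - a) ^ 2 / η)) * η := by
    nlinarith [sq_nonneg (η * a + (b - a)), mul_nonneg η0.le (sq_nonneg (b - a))]
  linarith [nonneg_of_mul_nonneg_left h η0]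

theorem sq_le {a b c s t : ℝ} (hs : 0 < s) (ht : 0 < t) :
    (c - a) ^ 2 ≤ (s + t) / s * (b - a) ^ 2 + (s + t) / t * (c - b) ^ 2 := by
  rw [div_mul_eq_mul_div, div_mul_eq_mul_div, div_add_div _ _ hs.ne' ht.ne',
    le_div_iff₀ (mul_pos hs ht)]
  nlinarith [sq_nonneg (t * (b - a) - s * (c - b))]

theorem log_ge {l : ℝ} (h : 0 ≤ l) : l - l ^ 2 ≤ Real.log (1 + l) := by
  have := Real.one_sub_inv_le_log_of_pos (by linarith : 0 < 1 + l)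
  refine le_trans ?_ this
  rw [inv_eq_one_div, one_sub_div (by linarith), le_div_iff₀ (by linarith)]
  nlinarith [mul_nonneg h (sq_nonneg l)]

end Vale.Agent.P223B
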