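import Vale.Agent.P223B.Stg
import Vale.Agent.P210B.Smo

/-!
# P223B: the amplification
-/

open Filter Topology Set Metric
open scoped ContDiff
open Vale.Agent.P366M Vale.Agent.P210G
open Vale.Agent.P223Y Vale.Agent.P223F Vale.Agent.P223A

noncomputable section

namespace Vale.Agent.P223B

theorem lam_le {x t : ℝ} (hx : 1 ≤ x) (t0 : 0 < t) : 0 < t * ((x + 1) ^ 4 - x ^ 4) ∧
    (x + 1) ^ 4 - x ^ 4 ≤ 15 * x ^ 3 ∧ t * ((x + 1) ^ 4 - x ^ 4) / (t * x ^ 4) ≤ 15 / x := by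
  have x0 : 0 < x := by linarith
  have a1 : x ≤ x ^ 2 := by nlinarith
  have a2 : x ^ 2 ≤ x ^ 3 := by nlinarith
  have a3 : (x + 1) ^ 4 - x ^ 4 ≤ 15 * x ^ 3 := by nlinarith
  refine ⟨mul_pos t0 (by nlinarith), a3, ?_⟩
  rw [mul_div_mul_left _ _ t0.ne', div_le_div_iff₀ (by positivity) x0]
  nlinarith

theorem loss {x l m : ℝ} (hx : 1 ≤ x) (l0 : 0 ≤ l) (l1 : l ≤ 15 / x) (m0 : 0 ≤ m) :
    (1 + 1 / x) * (m * l) + 1 / x ^ 2 ≤
      m * Real.log (1 + l) + 2 * (240 * m + 1) * (1 / x - 1 / (x + 1)) := by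
  have x0 : 0 < x := by linarith
  obtain ⟨u, hu⟩ : ∃ u, u = 1 / x := ⟨_, rfl⟩
  have u0 : 0 < u := hu ▸ by positivity
  have a1 : u ^ 2 ≤ 2 * (1 / x - 1 / (x + 1)) := by
    rw [hu, div_pow, div_sub_div _ _ x0.ne' (by positivity), ← mul_div_assoc,
      div_le_div_iff₀ (by positivity) (by positivity)]
    nlinarith
  rw [show 15 / x = 15 * u by rw [hu]; ring] at l1
  rw [show 1 / x ^ 2 = u ^ 2 by rw [hu]; ring]
  have a2 := mul_le_mul_of_nonneg_left (log_ge l0) m0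
  have a3 : l ^ 2 + u * l ≤ 240 * u ^ 2 := by nlinarith
  have a4 := mul_le_mul_of_nonneg_left a3 m0
  have a5 := mul_le_mul_of_nonneg_left a1 (by positivity : 0 ≤ 240 * m + 1)
  rw [← hu] at a5 ⊢
  nlinarith

variable {n : ℕ} {X : Type} [Mf0 n X] {Γ : Type} [Group Γ] [MulAction Γ X] {F : Fr Γ} {N : ℕ}
  {K : Set X} {g₀ : Fld n X} {g : F.Ω → Fld n X} {v : F.Ω → Fin n → X → ℝ}
  {Q b S Y : F.Ω → X → ℝ} {B : Finset Γ} {τ δ t L c x : ℝ}

/-- the schedule -/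
theorem Am.next (d : Deck X Γ) (hK : IsCompact K) (H : Sp F K N c) (h₀ : Met g₀) (cb : Cs b K)
    (hB : ∀ γ ∈ B, ∀ o, ∀ x ∉ K, lb γ b o x = 0) (τ0 : 0 < τ) (δ1 : δ ≤ 1 / 2) (t0 : 0 < t)
    (k1 : 1024 / t ≤ c * τ) (k2 : 15360 * (512 * (1 + 15 * n) / τ) ≤ t) (hx : 1 ≤ x)
    (I : Am g₀ b S B K τ δ (t * x ^ 4) (1 / 2 + 1 / (4 * x)) (1 / 4 - 1 / (8 * x))
      (L + τ * n * Real.log (x ^ 4) - 2 * (240 * (τ * n) + 1) * (1 / x)) g v Q Y) :
    ∃ g' v' Q' Y', Am g₀ b S B K τ δ (t * (x + 1) ^ 4) (1 / 2 + 1 / (4 * (x + 1)))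
      (1 / 4 - 1 / (8 * (x + 1))) (L + τ * n * Real.log ((x + 1) ^ 4) -
        2 * (240 * (τ * n) + 1) * (1 / (x + 1))) g' v' Q' Y' := by
  have x0 : 0 < x := by linarith
  obtain ⟨s0, s1, s2⟩ := lam_le hx t0
  have x2 : 1 ≤ x ^ 2 := one_le_pow₀ hx
  have u1 : 1 / x ≤ 1 := (div_le_one x0).2 hx
  have u2 : 1 / x ^ 2 ≤ 1 := (div_le_one (by positivity)).2 x2
  have u0 : 0 < 1 / x := by positivity
  have u3 : 1 / x ^ 2 ≤ 2 * (1 / x - 1 / (x + 1)) := by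
    rw [div_sub_div _ _ x0.ne' (by positivity), ← mul_div_assoc,
      div_le_div_iff₀ (by positivity) (by positivity)]
    nlinarith
  have e4 : ∀ a y : ℝ, 1 / (a * y) = 1 / a * (1 / y) := fun a y => by ring
  have n0 : (0 : ℝ) ≤ n := Nat.cast_nonneg n
  obtain ⟨g', v', Q', Y', J⟩ := I.step d hK H h₀ cb hB (s := t * ((x + 1) ^ 4 - x ^ 4))
    (a := 1 / (16 * x ^ 2)) (η := 1 / (32 * x ^ 2)) (R := 512 * (1 + 15 * n) / τ * x)
    (θ' := 1 / (2 * x)) (e := 1 / x ^ 2) (by positivity) s0 (by positivity) (by positivity)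
    (by rw [e4]; linarith) (by rw [e4]; linarith) τ0 (by positivity) (by rw [e4]; linarith)
    (by positivity) δ1 (by rw [e4]; linarith) (by simp only [e4]; nlinarith)
    (le_trans (le_of_eq (by field_simp; norm_num)) k1) (by
      generalize 512 * (1 + 15 * n) / τ = r at k2
      calc _ = ((x + 1) ^ 4 - x ^ 4) * (t * x) * r := by ring
        _ ≤ 15 * x ^ 3 * (t * x) * (t / 15360) :=
          (mul_le_mul_of_nonneg_left (show r ≤ t / 15360 by linarith)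
            (by nlinarith [mul_pos s0 x0])).trans (by gcongr)
        _ = (1 / (32 * x ^ 2)) ^ 2 * (t * x ^ 4) ^ 2 := by field_simp; norm_num
        _ ≤ _ := by gcongr; linarith)
    (by
      have := mul_le_mul_of_nonneg_left (s2.trans (div_le_self (by norm_num) hx)) n0
      rw [show 1 / (2 * x) * τ * (512 * (1 + 15 * n) / τ * x) = 256 * (1 + 15 * n) by
        field_simp; norm_num]
      linarith)
  rw [show t * x ^ 4 + t * ((x + 1) ^ 4 - x ^ 4) = t * (x + 1) ^ 4 by ring] at J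
  have u4 : 0 < 1 / x ^ 2 := by positivity
  refine ⟨g', v', Q', Y', J.mono (by simp only [e4]; linarith) (by simp only [e4]; linarith)
    (by simp only [e4]; linarith) ?_⟩
  have a := loss hx (by positivity) s2 (mul_nonneg τ0.le n0)
  rw [show 1 + t * ((x + 1) ^ 4 - x ^ 4) / (t * x ^ 4) = (x + 1) ^ 4 / x ^ 4 by field_simp; ring,
    Real.log_div (by positivity) (by positivity)] at a
  rw [e4]
  linarith

/-- **AMP** -/
theorem amp (h : SWP n) : AMP n := by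
  obtain ⟨c, c0, h⟩ := h
  intro γ γ0
  obtain ⟨τ, rfl⟩ : ∃ τ, γ = 2 * τ := ⟨γ / 2, by ring⟩
  have τ0 : 0 < τ := by linarith
  have n0 : (0 : ℝ) ≤ n := Nat.cast_nonneg n
  obtain ⟨t, t0, k1, k2, k3, k4⟩ : ∃ t > (0 : ℝ), 65536 / τ ≤ t ∧ 1024 / (c * τ) ≤ t ∧
      15360 * (512 * (1 + 15 * n) / τ) ≤ t ∧ 2 * n ≤ t := by
    have a1 : 0 < 65536 / τ := by positivity
    have a2 : 0 < 1024 / (c * τ) := by positivity
    have a3 : 0 < 15360 * (512 * (1 + 15 * n) / τ) := by positivity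
    exact ⟨65536 / τ + 1024 / (c * τ) + 15360 * (512 * (1 + 15 * n) / τ) + 2 * n, by positivity,
      by linarith, by linarith, by linarith, by linarith⟩
  refine ⟨t⁻¹, by positivity, 2 * τ + 1 + 2 * (240 * (τ * n) + 1) + τ * n * Real.log 16,
    fun X Γ _ _ _ d F g₀ hg K₀ hK₀ Λ => ?_⟩
  have := hg.prop
  obtain ⟨p⟩ : Nonempty X := inferInstance
  obtain ⟨r, hr⟩ := hK₀.isBounded.subset_closedBall p
  obtain ⟨ρ, ρ1, ρ2, ρ3⟩ := hg.smooth_dist p one_pos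
  have a0 : 0 < √(c * τ) / 2 := by positivity
  have hD := isCompact_closedBall p (r + 2 + (√(c * τ) / 2)⁻¹)
  obtain ⟨N₀, H₀⟩ := h X Γ d F _ hD
  obtain ⟨K, hK, s1, s2⟩ : ∃ K, IsCompact K ∧ closedBall p (r + 2 + (√(c * τ) / 2)⁻¹) ⊆ K ∧
      ∀ γ ∈ (proper d hK₀ hD).toFinset, ∀ x ∈ K₀, γ • x ∈ K :=
    ⟨_, hD.union ((proper d hK₀ hD).isCompact_biUnion fun γ _ => hK₀.image (cont_smul d γ)),
      subset_union_left, fun γ a x m => Or.inr (mem_biUnion ((Finite.mem_toFinset _).1 a) ⟨x, m, rfl⟩)⟩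
  obtain ⟨N, H⟩ := h X Γ d F K hK
  obtain ⟨L, hL⟩ : ∃ L, ∀ K', K' = (2 * τ + N₀ * (128 / (1024 / τ))) * (t * |Λ|) →
      K' * (2 + 2 * K' / (τ ^ 2 * (1024 / τ) / 12)) ^ 2 ≤ L := ⟨_, fun _ e => by rw [e]⟩
  refine ⟨_, L, hK, fun g v Q b φ S δ G U δ1 hy ε ε0 ε1 => ?_⟩
  have cb : Cs b K := fun o x k => U.cs o x fun m => k (s1 (closedBall_subset_closedBall
    (by linarith [inv_pos.2 a0]) (hr m)))
  obtain ⟨g₁, v₁, Q₁, Y₁, -, I₁⟩ := Am.zero d hD (S := S) (B := (proper d hK₀ hD).toFinset) H₀ hg.met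
    (ϖ := fun x => √(c * τ) / 2 * (ρ x - (r + 1))) (CD.mul cd_const (CD.sub ρ1 cd_const))
    (fun x k => by
      have := (lt_inv_mul_iff₀ a0).2 k
      exact mem_closedBall.2 (by linarith [(abs_le.1 (ρ2 x)).1]))
    (fun x k m => by
      linarith [(mul_pos_iff_of_pos_left a0).1 k, (abs_le.1 (ρ2 x)).2, mem_closedBall.1 (hr m)])
    (fun x => by
      have e : ∀ i, pd i (fun x => √(c * τ) / 2 * (ρ x - (r + 1))) x = √(c * τ) / 2 * pd i ρ x :=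
        fun i => by rw [pd_const_mul, pd_sub_const]
      rw [ip_of_pd e e, ← hg.met.gn_sq, ← sq, div_pow, Real.sq_sqrt (by positivity)]
      nlinarith [pow_le_pow_left₀ (gn_nonneg _ _ _) (ρ3 x) 2, mul_pos c0 τ0])
    (fun x k γ m => (Finite.mem_toFinset _).2 ⟨_, m, by simpa using k⟩) G U τ0 δ1 k1 hL hy
  have key : ∀ k : ℕ, ∃ g' v' Q' Y', Am g₀ b S (proper d hK₀ hD).toFinset K τ δ (t * (k + 1) ^ 4)
      (1 / 2 + 1 / (4 * (k + 1))) (1 / 4 - 1 / (8 * (k + 1)))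
      (2 * τ + 1 + 2 * (240 * (τ * n) + 1) + τ * n * Real.log ((k + 1) ^ 4) -
        2 * (240 * (τ * n) + 1) * (1 / (k + 1))) g' v' Q' Y' := fun k => by
    induction k with
    | zero =>
      refine ⟨g₁, v₁, Q₁, Y₁, ?_⟩
      convert I₁ K s1 using 1 <;> norm_num
    | succ k ih =>
      obtain ⟨g', v', Q', Y', I⟩ := ih
      rw [Nat.cast_succ]
      exact I.next d hK H hg.met cb (fun γ a o x k => U.cs _ _ fun m =>
        k (smul_inv_smul γ x ▸ s2 γ a _ m)) τ0 δ1 t0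
        ((div_le_comm₀ t0 (by positivity)).2 k2) k3 (le_add_of_nonneg_left (Nat.cast_nonneg k))
  have e1 : 1 ≤ ε⁻¹ := (one_le_inv₀ ε0).2 ε1
  have e2 : 1 ≤ √ε⁻¹ := Real.one_le_sqrt.2 e1
  have e3 : √ε⁻¹ ^ 4 = ε⁻¹ ^ 2 := by
    rw [show √ε⁻¹ ^ 4 = (√ε⁻¹ ^ 2) ^ 2 by ring, Real.sq_sqrt (by positivity)]
  obtain ⟨g', v', Q', Y', I⟩ := key ⌊√ε⁻¹⌋₊
  have f1 := (Nat.lt_floor_add_one √ε⁻¹).le
  have f2 : (⌊√ε⁻¹⌋₊ : ℝ) + 1 ≤ 2 * √ε⁻¹ := by linarith [Nat.floor_le (zero_le_one.trans e2)]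
  generalize (⌊√ε⁻¹⌋₊ : ℝ) + 1 = x at I f1 f2
  have x1 := e2.trans f1
  have u0 : 0 < 1 / x := by positivity
  have u1 : 1 / (8 * x) ≤ 1 / 8 := by gcongr; linarith
  obtain ⟨y, U', hE⟩ := I.norm d hK cb U.one (by positivity) (by linarith)
    (sub_le_self _ (by positivity))
  refine ⟨g', v', Q', y, I.gs, U', fun o z => ⟨(hE o z).trans ?_, le_trans ?_ (I.cur o z)⟩⟩
  · have a1 : ε⁻¹ ^ 2 ≤ x ^ 4 := e3 ▸ pow_le_pow_left₀ (by positivity) f1 4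
    calc _ ≤ t / (t * ε⁻¹ ^ 2) := by gcongr
      _ = _ := by field_simp
  · have a1 : Real.log (x ^ 4) ≤ Real.log 16 + 2 * Real.log ε⁻¹ := by
      rw [show (2 : ℝ) = (2 : ℕ) from rfl, ← Real.log_pow, ← Real.log_mul (by norm_num)
        (by positivity), ← e3]
      exact Real.log_le_log (by positivity)
        ((pow_le_pow_left₀ (by positivity) f2 4).trans_eq (by ring))
    have a2 := mul_le_mul_of_nonneg_left a1 (mul_nonneg τ0.le n0)
    have a3 : 0 ≤ 2 * (240 * (τ * n) + 1) * (1 / x) := by positivity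
    linarith

end Vale.Agent.P223B
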