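import Vale.Agent.P223F.Mt
import Vale.Agent.P223A.Defs
import Vale.Agent.P210F.Step
import Vale.Agent.P210A.Alg

/-!
# P223B: sharp amplification of a unit family; definitions (helper45)
-/

open Set
open scoped ContDiff
open Vale.Agent.P366M Vale.Agent.P366M.Gr Vale.Agent.P366M.Y.C Vale.Agent.P210G
open Vale.Agent.P210B (Riem)
open Vale.Agent.P210F.Al (xf)
open Vale.Agent.P223Y Vale.Agent.P223F Vale.Agent.P223A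

noncomputable section

namespace Vale.Agent.P223B

/-- **LOC**: the local step -/
def LOC (n : ℕ) : Prop := ∃ c > (0 : ℝ), ∀ (X : Type) [Mf0 n X] (g : Fld n X) (v : Fin n → X → ℝ)
  (ρ β ϖ B E q : X → ℝ) (D : Set X) (τ R μ θ p e : ℝ), Met g → CC ∞ v → Smooth ρ → Smooth β →
  Smooth ϖ → IsCompact D → 0 < τ → 0 < μ → 0 < θ → θ ≤ 1 / 2 → 0 ≤ p → 0 < e →
  256 * (1 + p) ≤ θ * τ * R → (∀ x, 0 ≤ ρ x ∧ ρ x ≤ R - μ) → (∀ x, ϖ x < 1 → x ∈ D) →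
  (∀ x, 0 < ϖ x → β x = 0) → (∀ x, 0 < ϖ x → ϖ x < 1 → ip g ϖ ϖ x ≤ c * τ) →
  (∀ x, ϖ x < 1 → 0 ≤ E x ∧ 0 ≤ q x ∧ ip g ρ ρ x ≤ 8 * ρ x * (1 + E x) ∧ ip g β β x ≤ B x ∧
    E x + B x ≤ p + q x) →
  ∃ (w : X → ℝ) (v' : Fin n → X → ℝ) (μ' : ℝ), Smooth w ∧ CC ∞ v' ∧ 0 < μ' ∧
    (∀ x, ρ x + (w x - β x) ^ 2 ≤ R - μ') ∧
    (∀ x, 9 / 10 ≤ ϖ x → w x = 0 ∧ ∀ i, v' i x = v i x) ∧
    ∀ x, ϖ x < 1 → Rv g v x + (τ * xf R (ρ x + (w x - β x) ^ 2) ^ 2) ^ 2 * (w x - β x) ^ 2 / 2 +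
      2 * τ * lw g w x + a2 g w x / 2 -
      (1 + 2 * θ) * (τ * xf R (ρ x + (w x - β x) ^ 2) ^ 2) * B x -
      128 * xf R (ρ x + (w x - β x) ^ 2) ^ 2 * q x / R - e ≤ Rv (gb g 1 w) v' x

variable {n : ℕ} {X : Type} [Mf0 n X] {Γ : Type} [Group Γ] [MulAction Γ X] {F : Fr Γ}

/-- the logarithm of the density of the volume -/
def ld (g : Fld n X) (x : X) : ℝ := Real.log √(mat g x).det

/-- the sum over all labels -/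
def Sg (p : F.Ω → X → ℝ) (o : F.Ω) (x : X) : ℝ := ∑ᶠ γ : Γ, lb γ p o x

/-- the energy of a labelled family -/
def Eg (g : F.Ω → Fld n X) (b : F.Ω → X → ℝ) : F.Ω → X → ℝ :=
  Sg fun o x => ip (g o) (b o) (b o) x

/-- unit families with supports in the translates of `K` -/
structure Uf (b : F.Ω → X → ℝ) (K : Set X) : Prop where
  tr : Tr b
  sm : ∀ o, Smooth (b o)
  cs : Cs b K
  one : ∀ o x, Sg (fun o x => b o x ^ 2) o x = 1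

/-- **SWP**: one sweep over the colours with the targets `β` -/
def SWP (n : ℕ) : Prop := ∃ c > (0 : ℝ), ∀ (X Γ : Type) [Mf0 n X] [Group Γ] [MulAction Γ X],
  Deck X Γ → ∀ (F : Fr Γ) (D : Set X), IsCompact D → ∃ N : ℕ, ∀ (g₀ : Fld n X)
  (g : F.Ω → Fld n X) (v : F.Ω → Fin n → X → ℝ) (Q β ϖ q : F.Ω → X → ℝ) (τ R θ p e : ℝ),
  Met g₀ → Gs F g₀ g v Q → Tr β → (∀ o, Smooth (β o)) → Tr ϖ → (∀ o, Smooth (ϖ o)) → 0 < τ →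
  0 < θ → θ ≤ 1 / 2 → 0 ≤ p → 0 < e → 256 * (1 + p) ≤ θ * τ * R →
  (∀ o x, ϖ o x < 1 → x ∈ D) → (∀ o x, 0 < ϖ o x → β o x = 0) →
  (∀ o x, 0 < ϖ o x → ϖ o x < 1 → ip (g o) (ϖ o) (ϖ o) x ≤ c * τ) →
  (∀ o x, 0 ≤ q o x ∧ Eg g β o x ≤ p + q o x) →
  ∃ (g' : F.Ω → Fld n X) (v' : F.Ω → Fin n → X → ℝ) (Q' w : F.Ω → X → ℝ), Gs F g₀ g' v' Q' ∧
    Tr w ∧ (∀ o, Smooth (w o)) ∧ (∀ o x, 9 / 10 ≤ ϖ o x → w o x = 0) ∧ ∀ o x,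
      (∀ i k, g' o x i k = g o x i k + Sg (fun o x => pd i (w o) x * pd k (w o) x) o x) ∧
      Sg (fun o x => (w o x - β o x) ^ 2) o x ≤ R ∧ Q o x ≤ Q' o x ∧ ∃ y ≥ (1 : ℝ),
      Rv (g o) (v o) x + 2 * τ * (ld (g' o) x - ld (g o) x) + (Q' o x - Q o x) / 2 +
        τ ^ 2 * R * (y ^ 3 - 1) / 6 - (1 + 2 * θ) * (τ * y ^ 2) * (p + q o x) -
        N * (128 * y ^ 2 * q o x / R) - e ≤ Rv (g' o) (v' o) x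

/-- **AMP**: the amplification -/
def AMP (n : ℕ) : Prop := ∀ γ > (0 : ℝ), ∃ e₀ > (0 : ℝ), ∃ C : ℝ, ∀ (X Γ : Type) [Mf0 n X]
  [Group Γ] [MulAction Γ X], Deck X Γ → ∀ (F : Fr Γ) (g₀ : Fld n X), Riem g₀ → ∀ K₀ : Set X,
  IsCompact K₀ → ∀ Λ : ℝ, ∃ (K : Set X) (L : ℝ), IsCompact K ∧ ∀ (g : F.Ω → Fld n X)
  (v : F.Ω → Fin n → X → ℝ) (Q b φ S : F.Ω → X → ℝ) (δ : ℝ), Gs F g₀ g v Q → Uf b K₀ → δ ≤ 1 / 2 →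
  (∀ o x, φ o x ∈ Icc (0 : ℝ) 1 ∧ Eg g b o x ≤ e₀ + Λ * φ o x ∧
    S o x + γ * ld (g o) x + δ * Q o x + L * φ o x ≤ Rv (g o) (v o) x) →
  ∀ ε > (0 : ℝ), ε ≤ 1 → ∃ (g' : F.Ω → Fld n X) (v' : F.Ω → Fin n → X → ℝ) (Q' y : F.Ω → X → ℝ),
    Gs F g₀ g' v' Q' ∧ Uf y K ∧ ∀ o x, Eg g' y o x ≤ ε ^ 2 ∧
      S o x + γ * (ld (g' o) x - n * Real.log ε⁻¹) + δ * Q' o x - C ≤ Rv (g' o) (v' o) x

/-- **ST1**: the first stage -/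
def ST1 (n : ℕ) : Prop := ∃ γ > (0 : ℝ), ∀ e₀ > (0 : ℝ), ∃ C : ℝ, ∀ (X Γ : Type) [Mf0 n X]
  [Group Γ] [MulAction Γ X] (g₀ : Fld n X) (χ : X → ℝ), Geo Γ g₀ χ → (∀ x, -1 ≤ scal g₀ x) →
  ∀ F : Fr Γ, ∃ δ > (0 : ℝ), δ ≤ 1 / 2 ∧ ∃ K₀ : Set X, IsCompact K₀ ∧ ∃ Λ : ℝ, ∀ L : ℝ,
    ∃ (g : F.Ω → Fld n X) (v : F.Ω → Fin n → X → ℝ) (Q b φ : F.Ω → X → ℝ), Gs F g₀ g v Q ∧
      Uf b K₀ ∧ ∀ o x, φ o x ∈ Icc (0 : ℝ) 1 ∧ Eg g b o x ≤ e₀ + Λ * φ o x ∧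
        γ * (ld (g o) x - ld g₀ x) + δ * Q o x + L * φ o x - C ≤ Rv (g o) (v o) x

end Vale.Agent.P223B
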