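import Vale.Agent.P223B.Defs
import Vale.Agent.P223F.Pair
import Vale.Agent.P210U.Loc

/-!
# P223B: sums over the labels; invariance and finite range of the geometric quantities
-/

open Filter Topology Set
open scoped ContDiff
open Vale.Agent.P366M Vale.Agent.P366M.Gr Vale.Agent.P366M.Y.C Vale.Agent.P210G
open Vale.Agent.P210A (dd qq)
open Vale.Agent.P223Y Vale.Agent.P223F Vale.Agent.P223A

noncomputable section

namespace Vale.Agent.P223B

section Pt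

variable {n : ℕ} {X : Type} [Mf0 n X] {g g' : Fld n X} {u u' f : X → ℝ} {x : X}

theorem gb_of_ev (e : g =ᶠ[𝓝 x] g') (e' : u =ᶠ[𝓝 x] u') : gb g 1 u =ᶠ[𝓝 x] gb g' 1 u' :=
  (gb_congr e').trans (e.mono fun y k => by funext i j; simp only [gb, k])

theorem ww_of_eq (e : g x = g' x) (e' : u =ᶠ[𝓝 x] u') : ww g 1 u x = ww g' 1 u' x := by
  rw [(ww_congr e').self_of_nhds, ww, ww, ip_of_eq e]

theorem a2_of_ev (e : g =ᶠ[𝓝 x] g') (e' : u =ᶠ[𝓝 x] u') : a2 g u x = a2 g' u' x :=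
  normSq_of_eq (gb_of_ev e e').self_of_nhds (by
    simp only [hess_congr e', hess_of_ev e, ww_of_eq e.self_of_nhds e'])

theorem a2_zero (e : u =ᶠ[𝓝 x] fun _ => 0) : a2 g u x = 0 := by
  simp [a2, normSq, hess_congr e, hess_const]

theorem lw_zero (e : u =ᶠ[𝓝 x] fun _ => 0) : lw g u x = 0 := by
  simp [lw, ww, ip_congr e e, ip_const_left]

theorem gb_zero (e : u =ᶠ[𝓝 x] fun _ => 0) : gb g 1 u =ᶠ[𝓝 x] g :=
  (gb_congr e).trans (.of_forall fun y => by funext i j; simp [gb, pd_const])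

theorem sm_a2 (hg : Met g) (hu : Smooth u) : Smooth (a2 g u) := by
  have := (met_g hg hu).sm_normSq (SmT.smul (CD.inv (sm_w hg hu) fun x => (w_pos hg u x).ne')
    (hg.sm_hess hu))
  simp only [← div_eq_inv_mul] at this
  exact this

theorem ld_gb (hg : Met g) (u : X → ℝ) (x : X) : ld (gb g 1 u) x = ld g x + lw g u x := by
  rw [ld, GbH.sqrt_det_gb hg, Real.log_mul (w_pos hg u x).ne'
    (Real.sqrt_pos.2 (hg.pos x).det_pos).ne', add_comm]
  rfl

theorem dd_gr (g : Fld n X) (u f : X → ℝ) (x : X) : dd u x (fun i => gr g f i x) = ip g u f x :=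
  (ip_eq_gr g u f x).symm

theorem qq_gr (hg : Met g) (f : X → ℝ) (x : X) : qq g x (fun i => gr g f i x) = ip g f f x := by
  rw [ip_eq_gr]
  refine Finset.sum_congr rfl fun i _ => ?_
  rw [← hg.g_up_mul x i fun l => pd l f x, Finset.sum_mul]
  exact Finset.sum_congr rfl fun k _ => by simp only [gr]; ring

theorem ip_le_of (hg : Met g) {c : ℝ} (c0 : 0 ≤ c) (h : ∀ ξ, dd f x ξ ^ 2 ≤ c * qq g x ξ) :
    ip g f f x ≤ c := by
  have := h fun i => gr g f i x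
  rw [dd_gr, qq_gr hg] at this
  by_contra k
  nlinarith

theorem dd_le (hg : Met g) (f : X → ℝ) (x : X) (ξ : Fin n → ℝ) :
    dd f x ξ ^ 2 ≤ ip g f f x * qq g x ξ := by
  have h := hg.up_cs x (fun i => pd i f x) fun i => ∑ k, g x i k * ξ k
  have a : ∀ i, ∑ j, up g i j x * ∑ k, g x j k * ξ k = ξ i := fun i => by
    simp only [Finset.mul_sum, ← mul_assoc]
    rw [Finset.sum_comm]
    simp only [← Finset.sum_mul, hg.up_mul]
    simp
  have b : ∀ η : Fin n → ℝ, ∑ i, ∑ j, up g i j x * η i * ∑ k, g x j k * ξ k = ∑ i, η i * ξ i :=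
    fun η => Finset.sum_congr rfl fun i _ => by
      rw [← a i, Finset.mul_sum]
      exact Finset.sum_congr rfl fun _ _ => by ring
  rw [b, b] at h
  refine h.trans_eq (congrArg _ (Finset.sum_congr rfl fun i _ => ?_))
  rw [Finset.sum_mul]
  exact Finset.sum_congr rfl fun _ _ => by ring

theorem dd_congr (e : u =ᶠ[𝓝 x] u') (ξ : Fin n → ℝ) : dd u x ξ = dd u' x ξ := by
  simp only [dd, pd_congr e]

theorem dd_lin (hu : DAt u x) (hf : DAt f x) (a b : ℝ) (ξ : Fin n → ℝ) :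
    dd (fun y => a * u y + b * f y) x ξ = a * dd u x ξ + b * dd f x ξ := by
  simp only [dd, pd_add (hu.const_mul a) (hf.const_mul b), pd_const_mul, Finset.mul_sum,
    ← Finset.sum_add_distrib]
  exact Finset.sum_congr rfl fun _ _ => by ring

theorem dd_sq' {J : Type} (s : Finset J) {y : J → X → ℝ} (hy : ∀ i, DAt (y i) x) (ξ : Fin n → ℝ) :
    dd (fun z => ∑ i ∈ s, y i z ^ 2) x ξ = 2 * ∑ i ∈ s, y i x * dd (y i) x ξ := by
  rw [P210A.dd_sum _ fun i _ => (hy i).pow 2, Finset.mul_sum]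
  refine Finset.sum_congr rfl fun i _ => ?_
  rw [P210A.dd_comp (φ := fun t => t ^ 2) (hasDerivAt_pow 2 _) (hy i)]
  norm_num
  ring

/-- the gradient of the running sum -/
theorem ip_rho {J : Type} (s : Finset J) {u β : J → X → ℝ} (hg : Met g) (hg' : Met g')
    (hu : ∀ i, DAt (u i) x) (hβ : ∀ i, DAt (β i) x)
    (e : ∀ i k, g' x i k = g x i k + ∑ j ∈ s, pd i (u j) x * pd k (u j) x)
    (mo : ∀ f, ip g' f f x ≤ ip g f f x) (h : f =ᶠ[𝓝 x] fun y => ∑ j ∈ s, (u j y - β j y) ^ 2) :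
    ip g' f f x ≤ 8 * f x * (1 + ∑ j ∈ s, ip g (β j) (β j) x) := by
  have r0 : 0 ≤ ∑ j ∈ s, (u j x - β j x) ^ 2 := Finset.sum_nonneg fun _ _ => sq_nonneg _
  have E0 : 0 ≤ ∑ j ∈ s, ip g (β j) (β j) x := Finset.sum_nonneg fun _ _ => hg.ip_nonneg _ x
  rw [h.self_of_nhds]
  refine ip_le_of hg' (by positivity) fun ξ => ?_
  have a1 : ∑ j ∈ s, dd (u j) x ξ ^ 2 ≤ qq g' x ξ := by
    have := P210F.Al.quad_eq e ξ
    simp only [qq, dd]
    linarith [hg.g_nonneg x ξ]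
  have a2 : ∑ j ∈ s, dd (β j) x ξ ^ 2 ≤ (∑ j ∈ s, ip g (β j) (β j) x) * qq g' x ξ := by
    rw [Finset.sum_mul]
    exact Finset.sum_le_sum fun j _ => (dd_le hg' _ x ξ).trans
      (mul_le_mul_of_nonneg_right (mo _) (hg'.g_nonneg x ξ))
  have b1 := (Finset.sum_mul_sq_le_sq_mul_sq s (fun j => u j x - β j x) fun j =>
    dd (u j) x ξ).trans (mul_le_mul_of_nonneg_left a1 r0)
  have b2 := (Finset.sum_mul_sq_le_sq_mul_sq s (fun j => u j x - β j x) fun j =>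
    dd (β j) x ξ).trans (mul_le_mul_of_nonneg_left a2 r0)
  have k : ∀ j, dd (fun y => u j y - β j y) x ξ = dd (u j) x ξ - dd (β j) x ξ := fun j => by
    simpa [sub_eq_add_neg] using dd_lin (hu j) (hβ j) 1 (-1) ξ
  rw [dd_congr h, dd_sq' s fun j => (hu j).sub (hβ j)]
  simp only [k, mul_sub (u _ x - β _ x), Finset.sum_sub_distrib]
  nlinarith [sq_nonneg (∑ j ∈ s, (u j x - β j x) * dd (u j) x ξ +
    ∑ j ∈ s, (u j x - β j x) * dd (β j) x ξ)]

end Pt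

variable {n : ℕ} {X : Type} [Mf0 n X] {Γ : Type} [Group Γ] [MulAction Γ X] {F : Fr Γ}
  {p q u : F.Ω → X → ℝ} {K D D' : Set X} {A : Set F.Ω} {o : F.Ω} {x : X} {T : Finset Γ}
  {g : F.Ω → Fld n X} {v : F.Ω → Fin n → X → ℝ}

omit [Mf0 n X] in
theorem Sg_eq (cs : Cs p K) (h : ∀ γ : Γ, γ⁻¹ • x ∈ K → γ ∈ T) :
    Sg p o x = ∑ γ ∈ T, lb γ p o x :=
  finsum_eq_sum_of_support_subset _ fun γ e => h γ (by_contra fun k => e (cs _ _ k))

theorem inv_Sg (p : F.Ω → X → ℝ) : Inv Γ (Sg p) := inv_finsum p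

theorem tr_Sg (d : Deck X Γ) (h : Tr p) (hK : IsCompact K) (cs : Cs p K) : Tr (Sg p) :=
  (h.fam d hK cs).map fun _ a => ∑ᶠ γ, a γ

theorem sm_Sg (d : Deck X Γ) (h : Tr p) (hK : IsCompact K) (cs : Cs p K) (s : ∀ o, Smooth (p o))
    (o : F.Ω) : Smooth (Sg p o) := Lf.sm_sum d ⟨h, s, K, hK, cs⟩ o

theorem vis (d : Deck X Γ) (hK : IsCompact K) (x : X) :
    ∃ T : Finset Γ, ∀ γ : Γ, γ⁻¹ • x ∈ K → γ ∈ T :=
  (ev_fin d hK x).imp fun _ h => h.self_of_nhds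

theorem Sg_add (d : Deck X Γ) (hK : IsCompact K) (cs : Cs p K) (cs' : Cs q K) (o : F.Ω) (x : X) :
    Sg (fun o x => p o x + q o x) o x = Sg p o x + Sg q o x := by
  obtain ⟨T, hT⟩ := vis d hK x
  rw [Sg_eq cs hT, Sg_eq cs' hT, Sg_eq (fun o x k => by simp [cs o x k, cs' o x k]) hT,
    ← Finset.sum_add_distrib]
  rfl

theorem Sg_mono (d : Deck X Γ) (hK : IsCompact K) (cs : Cs p K) (cs' : Cs q K)
    (h : ∀ o x, p o x ≤ q o x) (o : F.Ω) (x : X) : Sg p o x ≤ Sg q o x := by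
  obtain ⟨T, hT⟩ := vis d hK x
  rw [Sg_eq cs hT, Sg_eq cs' hT]
  exact Finset.sum_le_sum fun _ _ => h _ _

omit [Mf0 n X] in
theorem Sg_nonneg (h : ∀ o x, 0 ≤ p o x) (o : F.Ω) (x : X) : 0 ≤ Sg p o x :=
  finsum_nonneg fun _ => h _ _

omit [Mf0 n X] in
theorem Sg_mul (c : ℝ) (p : F.Ω → X → ℝ) (o : F.Ω) (x : X) :
    Sg (fun o x => c * p o x) o x = c * Sg p o x := (mul_finsum _ c).symm

omit [Mf0 n X] in
theorem Sg_on (hs : Sep Γ A D') (sb : D ⊆ D') (cs : Cs p D) (z : ∀ o ∉ A, ∀ x, p o x = 0)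
    (a : o ∈ A) (b : x ∈ D') : Sg p o x = p o x := by
  rw [Sg, finsum_eq_single (fun γ : Γ => lb γ p o x) 1 fun γ h => by_contra fun k => h (hs.eq
    (by_contra fun e => k (z _ e _)) (sb (by_contra fun e => k (cs _ _ e)))
    (by simpa using a) (by simpa using b)), lb_one]

omit [Mf0 n X] in
theorem Sg_off (cs : Cs p D) (z : ∀ o ∉ A, ∀ x, p o x = 0) (h : x ∉ Un Γ A D o) : Sg p o x = 0 :=
  finsum_eq_zero_of_forall_eq_zero fun γ => by_contra fun k =>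
    h ⟨γ, by_contra fun e => k (z _ e _), by_contra fun e => k (cs _ _ e)⟩

omit [MulAction Γ X] in
theorem cs_ev (hK : IsCompact K) (cs : Cs p K) (o : F.Ω) (h : x ∉ K) :
    p o =ᶠ[𝓝 x] fun _ => 0 := mem_of_superset (hK.isClosed.isOpen_compl.mem_nhds h) (cs o)

omit [MulAction Γ X] in
theorem cs_pd (hK : IsCompact K) (cs : Cs p K) (i : Fin n) : Cs (fun o x => pd i (p o) x) K :=
  fun o _ h => pd_zero_of_ev (cs_ev hK cs o h) i

omit [MulAction Γ X] in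
theorem cs_dd (hK : IsCompact K) (cs : Cs p K) (ξ : Fin n → ℝ) :
    Cs (fun o x => dd (p o) x ξ ^ 2) K := fun o x h => by simp [dd, cs_pd hK cs _ o x h]

omit [MulAction Γ X] in
theorem cs_ip (hK : IsCompact K) (cs : Cs p K) (g : F.Ω → Fld n X) :
    Cs (fun o x => ip (g o) (p o) (p o) x) K := fun o x h => by simp [ip, cs_pd hK cs _ o x h]

theorem lb_pd (d : Deck X Γ) (γ : Γ) (p : F.Ω → X → ℝ) (i : Fin n) (o : F.Ω) (x : X) :
    pd i (p (γ⁻¹ • o)) (γ⁻¹ • x) = pd i (lb γ p o) x := (congrFun ((d.cm γ⁻¹).pd i _) x).symm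

theorem lb_dd (d : Deck X Γ) (γ : Γ) (p : F.Ω → X → ℝ) (ξ : Fin n → ℝ) (o : F.Ω) (x : X) :
    dd (p (γ⁻¹ • o)) (γ⁻¹ • x) ξ = dd (lb γ p o) x ξ := by simp only [dd, lb_pd d]

theorem lb_ip (d : Deck X Γ) (hg : Inv Γ g) (γ : Γ) (p : F.Ω → X → ℝ) (o : F.Ω) (x : X) :
    ip (g (γ⁻¹ • o)) (p (γ⁻¹ • o)) (p (γ⁻¹ • o)) (γ⁻¹ • x) = ip (g o) (lb γ p o) (lb γ p o) x := by
  simp only [ip, lb_pd d, up_of_eq (g := g (γ⁻¹ • o)) (g' := fun _ => g o x) (hg γ⁻¹ o x)]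
  rfl

theorem sm_lb (d : Deck X Γ) (h : ∀ o, Smooth (p o)) (γ : Γ) (o : F.Ω) : Smooth (lb γ p o) :=
  d.smooth (h _) γ

theorem inv_pd (d : Deck X Γ) (h : Inv Γ u) (i : Fin n) : Inv Γ fun o => pd i (u o) :=
  fun γ o x => by
    have := congrFun ((d.cm γ).pd i (u (γ • o))) x
    simp only [h γ o] at this
    exact this.symm

theorem inv_gb (d : Deck X Γ) (hg : Inv Γ g) (h : Inv Γ u) : Inv Γ fun o => gb (g o) 1 (u o) :=
  fun γ o x => by
    funext i j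
    simp only [gb, hg γ o x, inv_pd d h _ γ o x, Pi.one_apply]

theorem inv_a2 (d : Deck X Γ) (hg : Inv Γ g) (h : Inv Γ u) : Inv Γ fun o => a2 (g o) (u o) :=
  fun γ o x => by
    have h1 := congrFun ((d.cm γ).hess (g (γ • o)) (u (γ • o))) x
    have h2 := congrFun ((d.cm γ).ip (g (γ • o)) (u (γ • o)) (u (γ • o))) x
    simp only [h γ o, hg γ o] at h1 h2
    simp only [a2, normSq, up, mat, inv_gb d hg h γ o x, ww, Pi.one_apply, ← h1, ← h2]

theorem inv_Rv (d : Deck X Γ) (S : Sta F g v) : Inv Γ fun o => Rv (g o) (v o) := fun γ o x => by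
  have := congrFun ((d.cm γ).Rv (g (γ • o)) (v (γ • o))) x
  simp only [S.rg.inv γ o, fun i z => congrFun (S.rv.inv γ o z) i] at this
  exact this.symm

omit [Mf0 n X] in
theorem inv_ld (hg : Inv Γ g) : Inv Γ fun o => ld (g o) := fun γ o x => by
  simp only [ld, mat, hg γ o x]

omit [MulAction Γ X] in
theorem tr_pd (h : Tr u) (i : Fin n) : Tr fun o => pd i (u o) :=
  h.of_germ fun _ _ _ e => pd_congr e i

omit [MulAction Γ X] in
theorem tr_gb (hg : Tr g) (h : Tr u) : Tr fun o => gb (g o) 1 (u o) :=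
  (hg.prod h).of_germ fun _ _ _ e => (gb_of_ev (e.mono fun _ k => congrArg Prod.fst k)
    (e.mono fun _ k => congrArg Prod.snd k)).self_of_nhds

omit [MulAction Γ X] in
theorem tr_a2 (hg : Tr g) (h : Tr u) : Tr fun o => a2 (g o) (u o) :=
  (hg.prod h).of_germ fun _ _ _ e => a2_of_ev (e.mono fun _ k => congrArg Prod.fst k)
    (e.mono fun _ k => congrArg Prod.snd k)

omit [MulAction Γ X] in
theorem tr_ip (hg : Tr g) (h : Tr u) : Tr fun o => ip (g o) (u o) (u o) :=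
  (hg.prod h).of_germ fun o o' x e => by
    have : u o =ᶠ[𝓝 x] u o' := e.mono fun _ k => congrArg Prod.snd k
    rw [ip_congr this this, ip_of_eq (g := g o) (g' := g o') (congrArg Prod.fst e.self_of_nhds)]

/-- sums of labelled covector fields -/
theorem cc_Sg (d : Deck X Γ) (hK : IsCompact K) (cs : ∀ i, Cs (fun o => v o i) K)
    (h : ∀ o, CC ∞ (v o)) (o : F.Ω) : CC ∞ fun i => Sg (fun o => v o i) o :=
  P210U.cc_loc fun x => by
    obtain ⟨T, hT⟩ := ev_fin d hK x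
    exact ⟨_, CC.sum (s := T) fun γ _ => (d.cm γ⁻¹).cc le_rfl (h (γ⁻¹ • o)),
      fun i => hT.mono fun y k => Sg_eq (cs i) k⟩

end Vale.Agent.P223B
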