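import Vale.Agent.P223B.Swp

/-!
# P223B: the stages of the amplification
-/

open Filter Topology Set
open scoped ContDiff
open Vale.Agent.P366M Vale.Agent.P366M.Gr Vale.Agent.P366M.Y.C Vale.Agent.P210G
open Vale.Agent.P210A (dd qq exists_frame)
open Vale.Agent.P223Y Vale.Agent.P223F Vale.Agent.P223A

noncomputable section

namespace Vale.Agent.P223B

variable {n : ℕ} {X : Type} [Mf0 n X] {Γ : Type} [Group Γ] [MulAction Γ X] {F : Fr Γ} {N : ℕ}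
  {K : Set X} {g₀ : Fld n X} {g g' : F.Ω → Fld n X} {v : F.Ω → Fin n → X → ℝ}
  {Q b S Y Y' w P : F.Ω → X → ℝ} {B : Finset Γ} {τ δ t θ h L c : ℝ}

/-- the conclusion of `SWP` -/
def Sp (F : Fr Γ) (D : Set X) (N : ℕ) (c : ℝ) : Prop := ∀ (g₀ : Fld n X)
  (g : F.Ω → Fld n X) (v : F.Ω → Fin n → X → ℝ) (Q β ϖ q : F.Ω → X → ℝ) (τ R θ p e : ℝ),
  Met g₀ → Gs F g₀ g v Q → Tr β → (∀ o, Smooth (β o)) → Tr ϖ → (∀ o, Smooth (ϖ o)) → 0 < τ →
  0 < θ → θ ≤ 1 / 2 → 0 ≤ p → 0 < e → 256 * (1 + p) ≤ θ * τ * R →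
  (∀ o x, ϖ o x < 1 → x ∈ D) → (∀ o x, 0 < ϖ o x → β o x = 0) →
  (∀ o x, 0 < ϖ o x → ϖ o x < 1 → ip (g o) (ϖ o) (ϖ o) x ≤ c * τ) →
  (∀ o x, 0 ≤ q o x ∧ Eg g β o x ≤ p + q o x) →
  ∃ (g' : F.Ω → Fld n X) (v' : F.Ω → Fin n → X → ℝ) (Q' w : F.Ω → X → ℝ), Gs F g₀ g' v' Q' ∧
    Tr w ∧ (∀ o, Smooth (w o)) ∧ (∀ o x, 9 / 10 ≤ ϖ o x → w o x = 0) ∧ ∀ o x,
      (∀ i k, g' o x i k = g o x i k + Sg (fun o x => pd i (w o) x * pd k (w o) x) o x) ∧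
      Sg (fun o x => (w o x - β o x) ^ 2) o x ≤ R ∧ Q o x ≤ Q' o x ∧ ∃ y ≥ (1 : ℝ),
      Rv (g o) (v o) x + 2 * τ * (ld (g' o) x - ld (g o) x) + (Q' o x - Q o x) / 2 +
        τ ^ 2 * R * (y ^ 3 - 1) / 6 - (1 + 2 * θ) * (τ * y ^ 2) * (p + q o x) -
        N * (128 * y ^ 2 * q o x / R) - e ≤ Rv (g' o) (v' o) x

/-- the invariant of the amplification -/
structure Am (g₀ : Fld n X) (b S : F.Ω → X → ℝ) (B : Finset Γ) (K : Set X) (τ δ t θ h L : ℝ)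
    (g : F.Ω → Fld n X) (v : F.Ω → Fin n → X → ℝ) (Q Y : F.Ω → X → ℝ) : Prop where
  gs : Gs F g₀ g v Q
  tY : Tr Y
  sY : ∀ o, Smooth (Y o)
  cs : Cs Y K
  conf : ∀ o x, Y o x ≠ 0 → θ ≤ ∑ γ ∈ B, lb γ Y o x ^ 2
  form : ∀ o x ξ, t * Sg (fun o x => dd (Y o) x ξ ^ 2) o x ≤ qq (g o) x ξ
  mv : ∀ o x, Sg (fun o x => (Y o x - b o x) ^ 2) o x ≤ h ^ 2
  cur : ∀ o x, S o x + 2 * τ * ld (g o) x + δ * Q o x - L ≤ Rv (g o) (v o) x

theorem Am.mono (I : Am g₀ b S B K τ δ t θ h L g v Q Y) {θ' h' L' : ℝ} (h1 : θ' ≤ θ) (h0 : 0 ≤ h)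
    (h2 : h ≤ h') (h3 : L ≤ L') : Am g₀ b S B K τ δ t θ' h' L' g v Q Y :=
  { I with
    conf := fun o x k => h1.trans (I.conf o x k)
    mv := fun o x => (I.mv o x).trans (pow_le_pow_left₀ h0 h2 2)
    cur := fun o x => by linarith [I.cur o x] }

omit [MulAction Γ X] [Mf0 n X] in
theorem cs_sub (cs : Cs Y K) (cs' : Cs Y' K) : Cs (fun o x => (Y' o x - Y o x) ^ 2) K :=
  fun o x k => by simp [cs o x k, cs' o x k]

theorem Eg_mul (a : ℝ) (o : F.Ω) (x : X) :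
    Eg g (fun o x => a * Y o x) o x = a ^ 2 * Eg g Y o x := by
  rw [Eg, Eg, ← Sg_mul]
  simp only [ip_of_pd (pd_const_mul a) (pd_const_mul a), sq]

variable (d : Deck X Γ) (hK : IsCompact K)
include d hK

theorem Eg_eq (hg : Inv Γ g) (cs : Cs P K) {o : F.Ω} {x : X} {T : Finset Γ}
    (h : ∀ γ : Γ, γ⁻¹ • x ∈ K → γ ∈ T) :
    Eg g P o x = ∑ γ ∈ T, ip (g o) (lb γ P o) (lb γ P o) x :=
  (Sg_eq (cs_ip hK cs g) h).trans (Finset.sum_congr rfl fun γ _ => lb_ip d hg γ P o x)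

theorem sum_le_Sg (cs : Cs P K) (p0 : ∀ o x, 0 ≤ P o x) (B : Finset Γ) (o : F.Ω) (x : X) :
    ∑ γ ∈ B, lb γ P o x ≤ Sg P o x := by
  classical
  obtain ⟨T, hT⟩ := vis d hK x
  rw [Sg_eq (T := T ∪ B) cs fun γ k => Finset.mem_union_left _ (hT γ k)]
  exact Finset.sum_le_sum_of_subset_of_nonneg Finset.subset_union_right fun _ _ _ => p0 _ _

theorem sum_ge (cs : Cs Y K) (cs' : Cs Y' K) {η : ℝ} (η0 : 0 < η) {o : F.Ω} {x : X}
    (k : Sg (fun o x => (Y' o x - Y o x) ^ 2) o x ≤ η ^ 2) (B : Finset Γ) :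
    (1 - η) * ∑ γ ∈ B, lb γ Y o x ^ 2 - η ≤ ∑ γ ∈ B, lb γ Y' o x ^ 2 := by
  have a := (sum_le_Sg d hK (cs_sub cs cs') (fun _ _ => sq_nonneg _) B o x).trans k
  have a1 := Finset.sum_le_sum (s := B) fun γ _ => sq_ge (a := lb γ Y o x) (b := lb γ Y' o x) η0
  rw [Finset.sum_sub_distrib, ← Finset.mul_sum, ← Finset.sum_div] at a1
  have a2 : (∑ γ ∈ B, (lb γ Y' o x - lb γ Y o x) ^ 2) / η ≤ η := (div_le_iff₀ η0).2 (sq η ▸ a)
  linarith

theorem qq_eq (cs : Cs w K) {o : F.Ω} {x : X}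
    (e : ∀ i k, g' o x i k = g o x i k + Sg (fun o x => pd i (w o) x * pd k (w o) x) o x)
    (ξ : Fin n → ℝ) : qq (g' o) x ξ = qq (g o) x ξ + Sg (fun o x => dd (w o) x ξ ^ 2) o x := by
  obtain ⟨T, hT⟩ := vis d hK x
  rw [Sg_eq (cs_dd hK cs ξ) hT]
  simp only [lb, lb_dd d]
  refine P210F.Al.quad_eq (fun i k => ?_) ξ
  rw [e, Sg_eq (fun o x k => by simp [cs_pd hK cs i o x k]) hT]
  simp only [lb, lb_pd d]

variable (I : Am g₀ b S B K τ δ t θ h L g v Q Y)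
include I

theorem Am.en (o : F.Ω) (x : X) : t * Eg g Y o x ≤ n := by
  obtain ⟨T, hT⟩ := vis d hK x
  obtain ⟨e, h1, h2⟩ := exists_frame (I.gs.met o) x
  rw [Eg_eq d hK I.gs.rg.inv I.cs hT, ← h2]
  simp only [h1, ← sq]
  rw [Finset.sum_comm, Finset.mul_sum]
  refine Finset.sum_le_sum fun l _ => le_trans (le_of_eq ?_) (I.form o x (e l))
  rw [Sg_eq (cs_dd hK I.cs _) hT]
  simp only [lb, lb_dd d]

theorem Am.slope (t0 : 0 < t) {a : ℝ} (o : F.Ω) (x : X) (k : ∑ γ ∈ B, lb γ Y o x ^ 2 ≤ 1) :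
    ip (g o) (fun x => (θ - ∑ γ ∈ B, lb γ Y o x ^ 2) / a)
      (fun x => (θ - ∑ γ ∈ B, lb γ Y o x ^ 2) / a) x ≤ 4 / (t * a ^ 2) := by
  refine ip_le_of (I.gs.met o) (by positivity) fun ξ => ?_
  have dY := fun γ => (sm_lb d I.sY γ o).diff x
  rw [P210A.dd_comp (φ := fun s => (θ - s) / a) (((hasDerivAt_id' _).const_sub θ).div_const a)
    (DAt.fun_sum fun γ _ => (dY γ).pow 2), dd_sq' B dY]
  have a1 := sum_le_Sg d hK (cs_dd hK I.cs ξ) (fun _ _ => sq_nonneg _) B o x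
  simp only [lb, lb_dd d] at a1
  have a2 : ∑ γ ∈ B, dd (lb γ Y o) x ξ ^ 2 ≤ qq (g o) x ξ / t := (le_div_iff₀' t0).2
    ((mul_le_mul_of_nonneg_left a1 t0.le).trans (I.form o x ξ))
  have a3 := (Finset.sum_mul_sq_le_sq_mul_sq B (fun γ => lb γ Y o x) fun γ =>
    dd (lb γ Y o) x ξ).trans (mul_le_mul k a2 (Finset.sum_nonneg fun _ _ => sq_nonneg _) one_pos.le)
  calc _ = 4 / a ^ 2 * (∑ γ ∈ B, lb γ Y o x * dd (lb γ Y o) x ξ) ^ 2 := by ring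
    _ ≤ 4 / a ^ 2 * (1 * (qq (g o) x ξ / t)) := by gcongr
    _ = _ := by ring

/-- one stage -/
theorem Am.step (H : Sp F K N c) (h₀ : Met g₀) (cb : Cs b K)
    (hB : ∀ γ ∈ B, ∀ o, ∀ x ∉ K, lb γ b o x = 0) {s a η R θ' e : ℝ} (t0 : 0 < t) (s0 : 0 < s)
    (a0 : 0 < a) (η0 : 0 < η) (η1 : η ≤ 1) (h0 : 0 < h) (τ0 : 0 < τ) (θ0 : 0 < θ')
    (θ1 : θ' ≤ 1 / 2) (e0 : 0 < e) (δ1 : δ ≤ 1 / 2) (k1 : θ ≤ 1) (k2 : h ^ 2 ≤ θ - a)
    (k3 : 4 / (t * a ^ 2) ≤ c * τ) (k4 : s * R ≤ η ^ 2 * (t + s) ^ 2)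
    (k5 : 256 * (1 + n * (s / t)) ≤ θ' * τ * R) : ∃ g' v' Q' Y', Am g₀ b S B K τ δ (t + s)
      (θ - a - 2 * η) (h + η) (L + (1 + 2 * θ') * τ * (n * (s / t)) + e) g' v' Q' Y' := by
  have mem : ∀ o x, (θ - ∑ γ ∈ B, lb γ Y o x ^ 2) / a < 1 → x ∈ K := fun o x k => by
    by_contra m
    have := (sum_le_Sg d hK (cs_sub cb I.cs) (fun _ _ => sq_nonneg _) B o x).trans (I.mv o x)
    rw [Finset.sum_congr rfl (g := fun γ => lb γ Y o x ^ 2) fun γ hγ => by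
      rw [← sub_zero (lb γ Y o x), ← hB γ hγ o x m]; rfl] at this
    linarith [(div_lt_one a0).1 k]
  have r2 := Real.sq_sqrt s0.le
  obtain ⟨g', v', Q', w, G, tw, sw, zw, hw⟩ := H g₀ g v Q (fun o x => √s * Y o x)
    (fun o x => (θ - ∑ γ ∈ B, lb γ Y o x ^ 2) / a) (fun _ _ => 0) τ R θ' (n * (s / t)) e h₀ I.gs
    (I.tY.map fun _ y => √s * y) (fun o => CD.mul cd_const (I.sY o))
    ((I.tY.fam d hK I.cs).map fun _ y => (θ - ∑ γ ∈ B, y γ ^ 2) / a)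
    (fun o => CD.div_const (CD.sub cd_const (CD.sum fun γ _ => (sm_lb d I.sY γ o).pow 2)) a)
    τ0 θ0 θ1 (by positivity) e0 k5 mem
    (fun o x k => by
      rw [by_contra fun m => (sub_pos.1 ((div_pos_iff_of_pos_right a0).1 k)).not_ge (I.conf o x m),
        mul_zero])
    (fun o x k _ => (I.slope d hK t0 o x (by
      linarith [(div_pos_iff_of_pos_right a0).1 k])).trans k3)
    fun o x => ⟨le_rfl, by
      rw [Eg_mul, r2, add_zero, ← mul_div_assoc, le_div_iff₀ t0]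
      nlinarith [I.en d hK o x]⟩
  have cw : Cs w K := fun o x k => zw o x (by linarith [not_lt.1 fun m => k (mem o x m)])
  have ts : 0 < t + s := by positivity
  have cY : Cs (fun o x => t / (t + s) * Y o x + √s / (t + s) * w o x) K := fun o x k => by
    simp [I.cs o x k, cw o x k]
  have mv : ∀ o x, Sg (fun o x => (t / (t + s) * Y o x + √s / (t + s) * w o x - Y o x) ^ 2) o x ≤
      η ^ 2 := fun o x => by
    have : ∀ o x, (t / (t + s) * Y o x + √s / (t + s) * w o x - Y o x) ^ 2 =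
        s / (t + s) ^ 2 * (w o x - √s * Y o x) ^ 2 := fun o x => by
      generalize √s = r at r2
      subst r2
      field_simp
      ring
    simp only [this, Sg_mul]
    refine (mul_le_mul_of_nonneg_left (hw o x).2.1 (by positivity)).trans ?_
    rwa [div_mul_eq_mul_div, div_le_iff₀ (by positivity)]
  refine ⟨g', v', Q', _, G, I.tY.map₂ tw fun _ y z => t / (t + s) * y + √s / (t + s) * z,
    fun o => CD.add (CD.mul cd_const (I.sY o)) (CD.mul cd_const (sw o)), cY, fun o x k => ?_,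
    fun o x ξ => ?_, fun o x => ?_, fun o x => ?_⟩
  · have a1 : θ - a ≤ ∑ γ ∈ B, lb γ Y o x ^ 2 := by
      by_cases m : Y o x = 0
      · have := (div_lt_iff₀ a0).1 (not_le.1 (mt (zw o x) fun j => k (by simp [m, j])))
        linarith
      · linarith [I.conf o x m]
    nlinarith [sum_ge d hK I.cs cY η0 (mv o x) B, mul_le_mul_of_nonneg_left a1 (sub_nonneg.2 η1)]
  · rw [qq_eq d hK cw (hw o x).1, ← Sg_mul]
    refine le_trans ?_ (add_le_add_left (I.form o x ξ) _)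
    rw [← Sg_mul, ← Sg_add d hK (fun o x k => by simp [cs_dd hK I.cs ξ o x k]) (cs_dd hK cw ξ)]
    refine Sg_mono d hK (fun o x k => by simp [cs_dd hK cY ξ o x k])
      (fun o x k => by simp [cs_dd hK I.cs ξ o x k, cs_dd hK cw ξ o x k]) (fun o x => ?_) o x
    rw [dd_lin ((I.sY o).diff x) ((sw o).diff x)]
    generalize dd (Y o) x ξ = y, dd (w o) x ξ = z, √s = r at r2 ts
    subst r2
    rw [show (t + r ^ 2) * (t / (t + r ^ 2) * y + r / (t + r ^ 2) * z) ^ 2 =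
      (t * y + r * z) ^ 2 / (t + r ^ 2) by field_simp, div_le_iff₀ ts]
    nlinarith [mul_nonneg t0.le (sq_nonneg (r * y - z))]
  · refine (Sg_mono d hK (cs_sub cb cY) (q := fun o x => (h + η) / h * (Y o x - b o x) ^ 2 +
      (h + η) / η * (t / (t + s) * Y o x + √s / (t + s) * w o x - Y o x) ^ 2)
      (fun o x k => by simp [I.cs o x k, cw o x k, cb o x k]) (fun o x => sq_le h0 η0) o x).trans ?_
    rw [Sg_add d hK (fun o x k => by simp [I.cs o x k, cb o x k])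
      (fun o x k => by simp [I.cs o x k, cw o x k]), Sg_mul, Sg_mul]
    calc _ ≤ (h + η) / h * h ^ 2 + (h + η) / η * η ^ 2 := by
          gcongr
          exacts [I.mv o x, mv o x]
      _ = _ := by field_simp
  · obtain ⟨-, -, q1, y, y1, q2⟩ := hw o x
    have p0 : 0 ≤ n * (s / t) := by positivity
    have a1 := Gy_ge τ0 θ0 θ1 p0 k5 y1
    have a2 : 0 ≤ τ ^ 2 * R * (y ^ 3 - 1) := mul_nonneg (mul_nonneg (sq_nonneg τ)
      ((mul_pos_iff_of_pos_left (mul_pos θ0 τ0)).1 (by linarith)).le)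
      (sub_nonneg.2 (one_le_pow₀ y1))
    have a3 := mul_le_mul_of_nonneg_right δ1 (sub_nonneg.2 q1)
    simp only [add_zero, mul_zero, zero_div] at q2
    linarith [I.cur o x]

/-- the normalisation -/
theorem Am.norm (cb : Cs b K) (one : ∀ o x, Sg (fun o x => b o x ^ 2) o x = 1) (t0 : 0 < t)
    (h0 : 0 ≤ h) (h1 : h ≤ 1 / 4) : ∃ y, Uf y K ∧ ∀ o x, Eg g y o x ≤ 2 * n / t := by
  have c2 : ∀ {Y : F.Ω → X → ℝ}, Cs Y K → Cs (fun o x => Y o x ^ 2) K := fun cs o x k => by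
    simp [cs o x k]
  have t2 : Tr fun o x => Y o x ^ 2 := I.tY.map fun _ y => y ^ 2
  have lo : ∀ o x, 1 / 2 ≤ Sg (fun o x => Y o x ^ 2) o x := fun o x => by
    obtain ⟨T, hT⟩ := vis d hK x
    have a := sum_ge d hK cb I.cs (η := 1 / 4) (by norm_num)
      ((I.mv o x).trans (pow_le_pow_left₀ h0 h1 2)) T
    have a1 := one o x
    rw [Sg_eq (c2 cb) hT] at a1
    rw [Sg_eq (c2 I.cs) hT]
    simp only [lb] at a a1 ⊢
    linarith
  have p0 : ∀ o x, 0 < Sg (fun o x => Y o x ^ 2) o x := fun o x => by linarith [lo o x]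
  have cy : Cs (fun o x => Y o x * (√(Sg (fun o x => Y o x ^ 2) o x))⁻¹) K := fun o x k => by
    simp [I.cs o x k]
  refine ⟨_, ⟨I.tY.map₂ (tr_Sg d t2 hK (c2 I.cs)) fun _ y z => y * (√z)⁻¹, fun o => CD.mul (I.sY o)
    (CD.inv (CD.sqrt (sm_Sg d t2 hK (c2 I.cs) (fun o => (I.sY o).pow 2) o) fun x => (p0 o x).ne')
      fun x => (Real.sqrt_pos.2 (p0 o x)).ne'), cy, fun o x => ?_⟩, fun o x => ?_⟩
  · obtain ⟨T, hT⟩ := vis d hK x
    rw [Sg_eq (c2 cy) hT]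
    simp only [lb, inv_Sg _ _ o x, mul_pow, inv_pow, Real.sq_sqrt (p0 o x).le, ← Finset.sum_mul]
    exact (congrArg (· * _) (Sg_eq (c2 I.cs) hT).symm).trans (mul_inv_cancel₀ (p0 o x).ne')
  · obtain ⟨T, hT⟩ := ev_fin d hK x
    have e : ∀ᶠ z in 𝓝 x, Sg (fun o x => Y o x ^ 2) o z = ∑ k : T, lb (k : Γ) Y o z ^ 2 :=
      hT.mono fun z k => by rw [Sg_eq (c2 I.cs) k, ← Finset.sum_coe_sort]; rfl
    have a := P210A.En_norm (I.gs.met o) (y := fun k : T => lb (k : Γ) Y o)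
      (fun k => (sm_lb d I.sY _ o).diff x) (e.self_of_nhds ▸ p0 o x)
    have a1 := I.en d hK o x
    rw [Eg_eq d hK I.gs.rg.inv I.cs hT.self_of_nhds, ← Finset.sum_coe_sort] at a1
    rw [Eg_eq d hK I.gs.rg.inv cy hT.self_of_nhds, ← Finset.sum_coe_sort]
    rw [← e.self_of_nhds, P210S.En, P210S.En] at a
    refine le_trans (le_of_eq (Finset.sum_congr rfl fun k _ => ?_)) (a.trans ?_)
    · have : lb (k : Γ) (fun o x => Y o x * (√(Sg (fun o x => Y o x ^ 2) o x))⁻¹) o =ᶠ[𝓝 x]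
          fun z => lb (k : Γ) Y o z * (√(∑ k : T, lb (k : Γ) Y o z ^ 2))⁻¹ := e.mono fun z j => by
        simp only [← j]
        simp only [lb, inv_Sg _ _ o z]
      exact ip_congr this this
    · rw [div_le_div_iff₀ (p0 o x) t0]
      nlinarith [lo o x, (Nat.cast_nonneg n : (0 : ℝ) ≤ n)]

omit I in
/-- the first stage -/
theorem Am.zero (H : Sp F K N c) (h₀ : Met g₀) {K₀ : Set X} {ϖ : X → ℝ} {φ : F.Ω → X → ℝ} {Λ : ℝ}
    (sϖ : Smooth ϖ) (mem : ∀ x, ϖ x < 1 → x ∈ K) (zero : ∀ x, 0 < ϖ x → x ∉ K₀)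
    (col : ∀ x, ip g₀ ϖ ϖ x ≤ c * τ) (hB : ∀ x ∈ K, ∀ γ : Γ, γ⁻¹ • x ∈ K₀ → γ ∈ B)
    (G : Gs F g₀ g v Q) (U : Uf b K₀) (τ0 : 0 < τ) (δ1 : δ ≤ 1 / 2) (k1 : 65536 / τ ≤ t)
    (hL : ∀ K', K' = (2 * τ + N * (128 / (1024 / τ))) * (t * |Λ|) →
      K' * (2 + 2 * K' / (τ ^ 2 * (1024 / τ) / 12)) ^ 2 ≤ L)
    (hy : ∀ o x, φ o x ∈ Icc (0 : ℝ) 1 ∧ Eg g b o x ≤ t⁻¹ + Λ * φ o x ∧
      S o x + 2 * τ * ld (g o) x + δ * Q o x + L * φ o x ≤ Rv (g o) (v o) x) :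
    ∃ g' v' Q' Y, Cs Y K ∧ ∀ K' ⊇ K, Am g₀ b S B K' τ δ t (3 / 4) (1 / 8) (2 * τ + 1) g' v' Q' Y := by
  have t0 : 0 < t := lt_of_lt_of_le (by positivity) k1
  have r0 := Real.sqrt_pos.2 t0
  have r2 := Real.sq_sqrt t0.le
  have k5 : 256 * (1 + 1) ≤ 1 / 2 * τ * (1024 / τ) := le_of_eq (by field_simp; norm_num)
  obtain ⟨g', v', Q', w, G', tw, sw, zw, hw⟩ := H g₀ g v Q (fun o x => √t * b o x) (fun _ => ϖ)
    (fun o x => t * |Λ| * φ o x) τ (1024 / τ) (1 / 2) 1 1 h₀ G (U.tr.map fun _ y => √t * y)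
    (fun o => CD.mul cd_const (U.sm o)) (tr_const ϖ) (fun _ => sϖ) τ0 (by norm_num) le_rfl
    one_pos.le one_pos k5 (fun _ => mem) (fun o x k => by rw [U.cs o x (zero x k), mul_zero])
    (fun o x _ _ => ((G.gi o).ip_le h₀ _ x).trans (col x)) fun o x =>
      ⟨mul_nonneg (by positivity) (hy o x).1.1, by
        rw [Eg_mul, r2]
        have a1 := mul_le_mul_of_nonneg_right (le_abs_self Λ) (hy o x).1.1
        have a2 := mul_le_mul_of_nonneg_left ((hy o x).2.1.trans (add_le_add_right a1 _)) t0.le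
        rw [mul_add, mul_inv_cancel₀ t0.ne'] at a2
        linarith⟩
  have k9 : ∀ x ∉ K, 9 / 10 ≤ ϖ x := fun x k => by linarith [not_lt.1 fun m => k (mem x m)]
  have cw : Cs w K := fun o x k => zw o x (k9 x k)
  have cb : Cs b K := fun o x k => U.cs o x (zero x (by linarith [k9 x k]))
  have cY : Cs (fun o x => (√t)⁻¹ * w o x) K := fun o x k => by simp [cw o x k]
  have mv : ∀ o x, Sg (fun o x => ((√t)⁻¹ * w o x - b o x) ^ 2) o x ≤ (1 / 8) ^ 2 := fun o x => by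
    have : ∀ o x, ((√t)⁻¹ * w o x - b o x) ^ 2 = t⁻¹ * (w o x - √t * b o x) ^ 2 := fun o x => by
      generalize √t = r at r2 r0
      subst r2
      field_simp
    simp only [this, Sg_mul]
    refine (mul_le_mul_of_nonneg_left (hw o x).2.1 (by positivity)).trans ?_
    rw [inv_mul_le_iff₀ t0]
    linarith [show 65536 / τ = 64 * (1024 / τ) by ring]
  refine ⟨g', v', Q', _, cY, fun K' sb => ⟨G', tw.map fun _ y => (√t)⁻¹ * y,
    fun o => CD.mul cd_const (sw o), fun o x k => cY o x fun m => k (sb m), fun o x k => ?_,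
    fun o x ξ => ?_, mv, fun o x => ?_⟩⟩
  · have a := sum_ge d hK cb cY (by norm_num) (mv o x) B
    have a1 := U.one o x
    rw [Sg_eq (fun o x k => by simp [U.cs o x k]) (hB x (by_contra fun m => k (cY o x m)))] at a1
    simp only [lb] at a a1 ⊢
    linarith
  · have : ∀ o x, dd (fun x => (√t)⁻¹ * w o x) x ξ ^ 2 = t⁻¹ * dd (w o) x ξ ^ 2 := fun o x => by
      rw [show t⁻¹ = (√t)⁻¹ ^ 2 by rw [inv_pow, r2], ← mul_pow]
      simp only [dd, pd_const_mul, Finset.mul_sum, mul_assoc]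
    simp only [this, Sg_mul]
    rw [mul_inv_cancel_left₀ t0.ne', qq_eq d hK cw (hw o x).1]
    exact le_add_of_nonneg_left ((G.met o).g_nonneg x ξ)
  · obtain ⟨-, -, q1, y, y1, q2⟩ := hw o x
    obtain ⟨⟨φ0, φ1⟩, -, q3⟩ := hy o x
    have a1 := Gy_ge τ0 (by norm_num) le_rfl one_pos.le k5 y1
    have a2 := bad (δ := τ ^ 2 * (1024 / τ) / 12)
      (K := (2 * τ + N * (128 / (1024 / τ))) * (t * |Λ|)) (by positivity) (by positivity) y1 φ0 φ1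
    have a3 := mul_le_mul_of_nonneg_right δ1 (sub_nonneg.2 q1)
    have a4 := mul_le_mul_of_nonneg_right (hL _ rfl) φ0
    have a5 : (2 * τ + N * (128 / (1024 / τ))) * (t * |Λ|) * y ^ 2 * φ o x =
        2 * (τ * y ^ 2) * (t * |Λ| * φ o x) + N * (128 * y ^ 2 * (t * |Λ| * φ o x) / (1024 / τ)) := by
      ring
    linarith

end Vale.Agent.P223B
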