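import Vale.Agent.P223B.Sg
import Vale.Agent.P223B.Alg

/-!
# P223B: one sweep over the colours
-/

open Filter Topology Set
open scoped ContDiff
open Vale.Agent.P366M Vale.Agent.P366M.Gr Vale.Agent.P366M.Y.C Vale.Agent.P210G
open Vale.Agent.P210F.Al (xf xf_ge)
open Vale.Agent.P223Y Vale.Agent.P223F Vale.Agent.P223A

noncomputable section

namespace Vale.Agent.P223B

/-- the local step, with the inequality at all points -/
def Lc (n : ℕ) (c : ℝ) : Prop := ∀ (X : Type) [Mf0 n X] (g : Fld n X) (v : Fin n → X → ℝ)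
  (ρ β ϖ B E q : X → ℝ) (D : Set X) (τ R μ θ p e : ℝ), Met g → CC ∞ v → Smooth ρ → Smooth β →
  Smooth ϖ → IsCompact D → 0 < τ → 0 < μ → 0 < θ → θ ≤ 1 / 2 → 0 ≤ p → 0 < e →
  256 * (1 + p) ≤ θ * τ * R → (∀ x, 0 ≤ ρ x ∧ ρ x ≤ R - μ) → (∀ x, ϖ x < 1 → x ∈ D) →
  (∀ x, 0 < ϖ x → β x = 0) → (∀ x, 0 < ϖ x → ϖ x < 1 → ip g ϖ ϖ x ≤ c * τ) →
  (∀ x, 0 ≤ E x ∧ 0 ≤ q x ∧ ip g ρ ρ x ≤ 8 * ρ x * (1 + E x) ∧ ip g β β x ≤ B x ∧
    (x ∈ D → E x + B x ≤ p + q x)) →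
  ∃ (w : X → ℝ) (v' : Fin n → X → ℝ) (μ' : ℝ), Smooth w ∧ CC ∞ v' ∧ 0 < μ' ∧
    (∀ x, 9 / 10 ≤ ϖ x → w x = 0 ∧ ∀ i, v' i x = v i x) ∧
    ∀ x, ρ x + (w x - β x) ^ 2 ≤ R - μ' ∧
      Rv g v x + (τ * xf R (ρ x + (w x - β x) ^ 2) ^ 2) ^ 2 * (w x - β x) ^ 2 / 2 +
      2 * τ * lw g w x + a2 g w x / 2 -
      (1 + 2 * θ) * (τ * xf R (ρ x + (w x - β x) ^ 2) ^ 2) * B x -
      128 * xf R (ρ x + (w x - β x) ^ 2) ^ 2 * q x / R - e ≤ Rv (gb g 1 w) v' x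

theorem lc_of {n : ℕ} (h : LOC n) : ∃ c > (0 : ℝ), Lc n c := by
  obtain ⟨c, c0, h⟩ := h
  refine ⟨c, c0, fun X _ g v ρ β ϖ B E q D τ R μ θ p e hg hv hρ hβ hϖ hD τ0 μ0 θ0 θ1 p0 e0 hc h1 h2
    h3 h4 h5 => ?_⟩
  obtain ⟨w, v', μ', a1, a2', a3, a4, a5, a6⟩ := h X g v ρ β ϖ B E q D τ R μ θ p e hg hv hρ hβ hϖ hD
    τ0 μ0 θ0 θ1 p0 e0 hc h1 h2 h3 h4 fun x k =>
      ⟨(h5 x).1, (h5 x).2.1, (h5 x).2.2.1, (h5 x).2.2.2.1, (h5 x).2.2.2.2 (h2 x k)⟩
  refine ⟨w, v', μ', a1, a2', a3, a5, fun x => ⟨a4 x, ?_⟩⟩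
  rcases lt_or_ge (ϖ x) 1 with k | k
  · exact a6 x k
  have N : ∀ᶠ y in 𝓝 x, 9 / 10 < ϖ y := hϖ.cont.continuousAt.eventually (lt_mem_nhds (by linarith))
  have z : w =ᶠ[𝓝 x] fun _ => 0 := N.mono fun y b => (a5 y b.le).1
  rw [P210U.Rv_of_ev (gb_zero z) fun i => N.mono fun y b => (a5 y b.le).2 i, lw_zero z, a2_zero z,
    show w x = 0 from z.self_of_nhds, h3 x (by linarith), sub_self, zero_pow two_ne_zero, add_zero]
  have R0 : 0 < R := by linarith [(h1 x).1, (h1 x).2]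
  have b1 := (hg.ip_nonneg β x).trans (h5 x).2.2.2.1
  have b2 := (h5 x).2.1
  have b3 : 0 ≤ (1 + 2 * θ) * (τ * xf R (ρ x) ^ 2) * B x := by positivity
  have b4 : 0 ≤ 128 * xf R (ρ x) ^ 2 * q x / R := by positivity
  linarith

variable {n : ℕ} {X : Type} [Mf0 n X] {Γ : Type} [Group Γ] [MulAction Γ X] {F : Fr Γ} {N : ℕ}
  {D D' : Set X} {g₀ : Fld n X} {g g' : F.Ω → Fld n X} {v v' : F.Ω → Fin n → X → ℝ}
  {Q Q' β ϖ q u : F.Ω → X → ℝ} {c : F.Ω → Fin N} {s : Finset (Fin N)} {τ R θ p e c₀ : ℝ}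

/-- the restriction to the colours in `s` -/
def rs (c : F.Ω → Fin N) (s : Finset (Fin N)) (β : F.Ω → X → ℝ) (o : F.Ω) : X → ℝ :=
  if c o ∈ s then β o else fun _ => 0

/-- the invariant of the sweep -/
structure Sw (g₀ : Fld n X) (g : F.Ω → Fld n X) (v : F.Ω → Fin n → X → ℝ)
    (Q β ϖ q : F.Ω → X → ℝ) (c : F.Ω → Fin N) (τ R θ e : ℝ) (s : Finset (Fin N))
    (g' : F.Ω → Fld n X) (v' : F.Ω → Fin n → X → ℝ) (Q' u : F.Ω → X → ℝ) : Prop where
  gs : Gs F g₀ g' v' Q'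
  tu : Tr u
  su : ∀ o, Smooth (u o)
  z1 : ∀ o, c o ∉ s → u o = fun _ => 0
  z2 : ∀ o x, 9 / 10 ≤ ϖ o x → u o x = 0
  eq : ∀ o x i k, g' o x i k = g o x i k + Sg (fun o x => pd i (u o) x * pd k (u o) x) o x
  mo : ∀ o f x, ip (g' o) f f x ≤ ip (g o) f f x
  lt : ∃ μ > (0 : ℝ), ∀ o x, Sg (fun o x => (u o x - rs c s β o x) ^ 2) o x ≤ R - μ
  le : ∀ o x, Q o x ≤ Q' o x
  cur : ∀ o x, Rv (g o) (v o) x + 2 * τ * (ld (g' o) x - ld (g o) x) + (Q' o x - Q o x) / 2 +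
    Gy τ R θ (q o x) (Eg g (rs c s β) o x) s.card
      (xf R (Sg (fun o x => (u o x - rs c s β o x) ^ 2) o x)) - s.card * e ≤ Rv (g' o) (v' o) x

omit [MulAction Γ X] in
theorem tr_rs (hc : IsLocallyConstant c) (h : Tr β) : Tr (rs c s β) := fun o x => by
  filter_upwards [h o x, (hc.eventually_eq o).prod_inl _] with a b k
  simp only [rs, k]
  split_ifs
  exacts [b, rfl]

omit [MulAction Γ X] in
theorem sm_rs (h : ∀ o, Smooth (β o)) (o : F.Ω) : Smooth (rs c s β o) := by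
  unfold rs
  split_ifs
  exacts [h o, cd_const]

omit [MulAction Γ X] [Mf0 n X] in
theorem cs_rs (h : Cs β D) : Cs (rs c s β) D := fun o x k => by
  unfold rs
  split_ifs
  exacts [h o x k, rfl]

theorem Sg_split (d : Deck X Γ) {A : Set F.Ω} (hD : IsCompact D) (hs : Sep Γ A D') (sb : D ⊆ D')
    {P P' P₁ : F.Ω → X → ℝ} (cs : Cs P D) (cs₁ : Cs P₁ D) (h : ∀ o x, P' o x = P o x + P₁ o x)
    (z : ∀ o ∉ A, ∀ x, P₁ o x = 0) (o : F.Ω) (x : X) : (x ∉ Un Γ A D o → Sg P' o x = Sg P o x) ∧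
      (o ∈ A → x ∈ D' → Sg P' o x = Sg P o x + P₁ o x) := by
  rw [show P' = fun o x => P o x + P₁ o x from funext₂ h, Sg_add d hD cs cs₁]
  exact ⟨fun k => by rw [Sg_off cs₁ z k, add_zero], fun a b => by rw [Sg_on hs sb cs₁ z a b]⟩

/-- the hypotheses of a sweep -/
structure Hy (g₀ : Fld n X) (g : F.Ω → Fld n X) (v : F.Ω → Fin n → X → ℝ)
    (Q β ϖ q : F.Ω → X → ℝ) (c : F.Ω → Fin N) (D D' : Set X) (τ R θ p e c₀ : ℝ) : Prop where
  d : Deck X Γ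
  hD : IsCompact D
  hD' : IsCompact D'
  sb : D ⊆ interior D'
  lc : IsLocallyConstant c
  sep : ∀ j, IsClopen {o | c o = j} ∧ Sep Γ {o | c o = j} D'
  gs : Gs F g₀ g v Q
  tβ : Tr β
  sβ : ∀ o, Smooth (β o)
  tϖ : Tr ϖ
  sϖ : ∀ o, Smooth (ϖ o)
  tq : Tr q
  iq : Inv Γ q
  τ0 : 0 < τ
  θ0 : 0 < θ
  θ1 : θ ≤ 1 / 2
  p0 : 0 ≤ p
  e0 : 0 < e
  hc : 256 * (1 + p) ≤ θ * τ * R
  mem : ∀ o x, ϖ o x < 1 → x ∈ D
  zero : ∀ o x, 0 < ϖ o x → β o x = 0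
  col : ∀ o x, 0 < ϖ o x → ϖ o x < 1 → ip (g o) (ϖ o) (ϖ o) x ≤ c₀ * τ
  en : ∀ o x, 0 ≤ q o x ∧ Eg g β o x ≤ p + q o x

variable (H : Hy g₀ g v Q β ϖ q c D D' τ R θ p e c₀) (I : Sw g₀ g v Q β ϖ q c τ R θ e s g' v' Q' u)
include H

theorem Hy.R0 : 0 < R := by
  have := H.hc
  have := H.p0
  exact (mul_pos_iff_of_pos_left (mul_pos H.θ0 H.τ0)).1 (by linarith)

theorem Hy.cβ : Cs β D := fun o x k => H.zero o x (one_pos.trans_le (not_lt.1 fun a => k (H.mem o x a)))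

theorem Hy.E0 (b : F.Ω → X → ℝ) (o : F.Ω) (x : X) : 0 ≤ Eg g b o x :=
  Sg_nonneg (fun o x => (H.gs.met o).ip_nonneg _ x) o x

/-- the splitting of the energy -/
theorem Hy.Es {j : Fin N} (hj : j ∉ s) (o : F.Ω) (x : X) :
    (x ∉ Un Γ {o | c o = j} D o → Eg g (rs c (insert j s) β) o x = Eg g (rs c s β) o x) ∧
      (c o = j → x ∈ D' → Eg g (rs c (insert j s) β) o x =
        Eg g (rs c s β) o x + ip (g o) (β o) (β o) x) := by
  have := Sg_split H.d H.hD (H.sep j).2 (H.sb.trans interior_subset)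
    (P' := fun o x => ip (g o) (rs c (insert j s) β o) (rs c (insert j s) β o) x)
    (cs_ip H.hD (cs_rs (c := c) (s := s) H.cβ) g) (cs_ip H.hD (cs_rs (c := c) (s := {j}) H.cβ) g)
    (fun o x => by
      by_cases k : c o = j
      · simp [rs, k, hj, ip_const_left]
      · simp [rs, k, ip_const_left])
    (fun o k x => by simp [rs, show ¬c o = j from k, ip_const_left]) o x
  exact ⟨this.1, fun a b => (this.2 a b).trans (by simp [rs, a, Eg])⟩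

theorem Hy.Ele (o : F.Ω) (x : X) : Eg g (rs c s β) o x ≤ Eg g β o x :=
  Sg_mono H.d H.hD (cs_ip H.hD (cs_rs H.cβ) g) (cs_ip H.hD H.cβ g) (fun o x => by
    unfold rs
    split_ifs
    exacts [le_rfl, (ip_const_left 0).trans_le ((H.gs.met o).ip_nonneg _ x)]) o x

include I

theorem Sw.cu : Cs u D := fun o x k =>
  I.z2 o x (by linarith [not_lt.1 fun a => k (H.mem o x a)])

theorem Sw.cρ : Cs (fun o x => (u o x - rs c s β o x) ^ 2) D := fun o x k => by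
  simp [I.cu H o x k, cs_rs H.cβ o x k]

theorem Sw.ipρ (o : F.Ω) (x : X) : ip (g' o) (Sg (fun o x => (u o x - rs c s β o x) ^ 2) o)
    (Sg (fun o x => (u o x - rs c s β o x) ^ 2) o) x ≤
      8 * Sg (fun o x => (u o x - rs c s β o x) ^ 2) o x * (1 + Eg g (rs c s β) o x) := by
  obtain ⟨T, hT⟩ := ev_fin H.d H.hD x
  rw [Eg, Sg_eq (cs_ip H.hD (cs_rs H.cβ) g) hT.self_of_nhds]
  simp only [lb, lb_ip H.d H.gs.rg.inv]
  refine ip_rho T (H.gs.met o) (I.gs.met o) (fun γ => (sm_lb H.d I.su γ o).diff x)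
    (fun γ => (sm_lb H.d (sm_rs H.sβ) γ o).diff x) (fun i k => ?_) (fun f => I.mo o f x)
    (hT.mono fun y k => Sg_eq (I.cρ H) k)
  rw [I.eq, Sg_eq (fun o x k => by simp [cs_pd H.hD (I.cu H) i o x k]) hT.self_of_nhds]
  simp only [lb, lb_pd H.d]

/-- the local solutions -/
theorem Sw.loc (hL : Lc n c₀) {j : Fin N} (hj : j ∉ s) : ∃ (w : F.Ω → X → ℝ)
    (V : F.Ω → Fin n → X → ℝ) (μ : ℝ), Tr w ∧ (∀ i, Tr fun o => V o i) ∧ 0 < μ ∧ ∀ o,
      Smooth (w o) ∧ CC ∞ (V o) ∧ (c o ≠ j → w o = (fun _ => 0) ∧ ∀ i x, V o i x = 0) ∧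
      (∀ x, 9 / 10 ≤ ϖ o x → w o x = 0 ∧ ∀ i, V o i x = 0) ∧ (c o = j → ∀ x ∈ D, ∀ ρ,
        ρ = Sg (fun o x => (u o x - rs c s β o x) ^ 2) o x + (w o x - β o x) ^ 2 → ρ ≤ R - μ ∧
        Rv (g' o) (v' o) x + (τ * xf R ρ ^ 2) ^ 2 * (w o x - β o x) ^ 2 / 2 +
          2 * τ * lw (g' o) (w o) x + a2 (g' o) (w o) x / 2 -
          (1 + 2 * θ) * (τ * xf R ρ ^ 2) * ip (g o) (β o) (β o) x - 128 * xf R ρ ^ 2 * q o x / R - e ≤
          Rv (gb (g' o) 1 (w o)) (fun i y => v' o i y + V o i y) x) := by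
  obtain ⟨μ, μ0, hμ⟩ := I.lt
  set ρ := Sg fun o x => (u o x - rs c s β o x) ^ 2 with hρ
  have tz : Tr fun o x => (u o x - rs c s β o x) ^ 2 :=
    I.tu.map₂ (tr_rs H.lc H.tβ) fun _ a b => (a - b) ^ 2
  obtain ⟨r, r1, r2⟩ := (I.gs.rg.tr.prod (I.gs.rv.tr.prod ((tr_Sg H.d tz H.hD (I.cρ H)).prod
    (H.tβ.prod (H.tϖ.prod ((tr_ip H.gs.rg.tr H.tβ).prod H.tq)))))).rep H.hD' (H.sep j).1
  simp only [Prod.mk.injEq, mem_ofPred_eq, ← hρ] at r2
  have L := fun o (a : c o = j) => hL X (g' o) (v' o) (ρ o) (β o) (ϖ o)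
    (fun x => ip (g o) (β o) (β o) x) (Eg g (rs c s β) o) (q o) D τ R μ θ p e (I.gs.met o)
    (I.gs.cc o) (sm_Sg H.d tz H.hD (I.cρ H) (fun o => (CD.sub (I.su o) (sm_rs H.sβ o)).pow 2) o)
    (H.sβ o) (H.sϖ o) H.hD H.τ0 μ0 H.θ0 H.θ1 H.p0 H.e0 H.hc
    (fun x => ⟨Sg_nonneg (fun _ _ => sq_nonneg _) o x, hμ o x⟩) (H.mem o) (H.zero o)
    (fun x a b => (I.mo o _ x).trans (H.col o x a b)) fun x => ⟨H.E0 _ o x, (H.en o x).1,
      I.ipρ H o x, I.mo o _ x, fun k => ((H.Es hj o x).2 a (interior_subset (H.sb k))).symm.le.trans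
        ((H.Ele o x).trans (H.en o x).2)⟩
  choose! w V m w1 V1 m0 wz wm using L
  obtain ⟨μ', μ'0, hμ'⟩ : ∃ μ' > (0 : ℝ), ∀ o, c o = j → μ' ≤ m (r o) := by
    obtain ⟨a, a0, ha⟩ := (((eventually_all_finite r1.range_finite).2 fun o _ => (em (c o = j)).elim
      (fun k => (eventually_le_nhds (m0 o k)).mono fun t b (_ : c o = j) => b)
      fun k => .of_forall fun t b => (k b).elim).filter_mono nhdsWithin_le_nhds |>.and
        (self_mem_nhdsWithin (s := Ioi (0 : ℝ)))).exists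
    exact ⟨a, ha, fun o k => a0 _ ⟨o, rfl⟩ ((r2 o).1.2 k)⟩
  have lc := H.lc.prodMk r1
  refine ⟨fun o => if c o = j then w (r o) else fun _ => 0,
    fun o i x => if c o = j then V (r o) i x - v' (r o) i x else 0, μ',
    tr_lc lc fun b => if b.1 = j then w b.2 else fun _ => 0,
    fun i => tr_lc lc fun b x => if b.1 = j then V b.2 i x - v' b.2 i x else 0, μ'0, fun o => ?_⟩
  by_cases a : c o = j
  swap
  · simp only [a, if_false]
    exact ⟨cd_const, by simpa using (I.gs.cc o).sub (I.gs.cc o), fun _ => ⟨trivial, fun _ _ => trivial⟩,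
      fun _ _ => ⟨trivial, fun _ => trivial⟩, False.elim⟩
  have a' := (r2 o).1.2 a
  simp only [a, if_true]
  refine ⟨w1 _ a', (V1 _ a').sub (I.gs.cc _), fun k => (k rfl).elim, fun x k => ?_,
    fun _ x hx ρ' e' => ?_⟩
  · have : 9 / 10 ≤ ϖ (r o) x := by
      by_cases b : x ∈ D'
      · rwa [((r2 o).2 x b).2.2.2.2.1]
      · linarith [not_lt.1 fun k => b (interior_subset (H.sb (H.mem (r o) x k)))]
    exact ⟨(wz _ a' x this).1, fun i => sub_eq_zero.2 ((wz _ a' x this).2 i)⟩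
  have N : ∀ᶠ y in 𝓝 x, _ := Eventually.mono (mem_interior_iff_mem_nhds.1 (H.sb hx)) (r2 o).2
  have e1 : g' (r o) =ᶠ[𝓝 x] g' o := N.mono fun _ k => k.1
  have e2 : ∀ i, v' (r o) i =ᶠ[𝓝 x] v' o i := fun i => N.mono fun _ k => congrFun k.2.1 i
  obtain ⟨-, -, b1, b2, -, b3, b4⟩ := N.self_of_nhds
  obtain ⟨k1, k2⟩ := wm _ a' x
  rw [b1, b2, ← e'] at k1 k2
  rw [b3, b4, P210U.Rv_of_ev e1 e2, lw, ww_of_eq e1.self_of_nhds .rfl, a2_of_ev e1 .rfl,
    P210U.Rv_of_ev (gb_of_ev e1 .rfl) (v' := fun i y => v' o i y + (V (r o) i y - v' (r o) i y))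
      fun i => (e2 i).mono fun y k => by simp [k]] at k2
  exact ⟨by linarith [hμ' o a], k2⟩

/-- one step of the sweep -/
theorem Sw.step (hL : Lc n c₀) {j : Fin N} (hj : j ∉ s) :
    ∃ g'' v'' Q'' u', Sw g₀ g v Q β ϖ q c τ R θ e (insert j s) g'' v'' Q'' u' := by
  obtain ⟨w, V, μ', tw, tV, μ'0, h⟩ := I.loc H hL hj
  obtain ⟨μ, μ0, hμ⟩ := I.lt
  have d := H.d
  have sb := H.sb.trans interior_subset
  obtain ⟨hA, hs⟩ := H.sep j
  have k9 : ∀ o, ∀ x ∉ D, 9 / 10 ≤ ϖ o x := fun o x k => by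
    linarith [not_lt.1 fun a => k (H.mem o x a)]
  have cw : Cs w D := fun o x k => ((h o).2.2.2.1 x (k9 o x k)).1
  have cV : ∀ i, Cs (fun o => V o i) D := fun i o x k => ((h o).2.2.2.1 x (k9 o x k)).2 i
  have zw : ∀ o ∉ {o | c o = j}, ∀ x, w o x = 0 := fun o a x => congrFun ((h o).2.2.1 a).1 x
  have on : ∀ {P : F.Ω → X → ℝ}, Cs P D → (∀ o ∉ {o | c o = j}, ∀ x, P o x = 0) →
      ∀ o ∈ {o | c o = j}, ∀ x ∈ D, Sg P o =ᶠ[𝓝 x] P o := fun cs z o a x b =>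
    Eventually.mono (mem_interior_iff_mem_nhds.1 (H.sb b)) fun y => Sg_on hs sb cs z a
  have off : ∀ {P : F.Ω → X → ℝ}, Cs P D → (∀ o ∉ {o | c o = j}, ∀ x, P o x = 0) →
      ∀ o, ∀ x ∉ Un Γ {o | c o = j} D o, Sg P o =ᶠ[𝓝 x] fun _ => 0 := fun cs z o x b =>
    Eventually.mono ((isClosed_un d hA.isClosed H.hD o).isOpen_compl.mem_nhds b)
      fun y => Sg_off cs z
  have zV := fun i o (a : o ∉ {o | c o = j}) => ((h o).2.2.1 a).2 i
  have sW := sm_Sg d tw H.hD cw fun o => (h o).1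
  have tW := tr_Sg d tw H.hD cw
  have hu : ∀ o, (c o = j ∧ u o = fun _ => 0) ∨ (c o ≠ j ∧ w o = fun _ => 0) := fun o =>
    (em (c o = j)).imp (fun a => ⟨a, I.z1 o (a ▸ hj)⟩) fun a => ⟨a, ((h o).2.2.1 a).1⟩
  have sρ := Sg_split d H.hD hs sb
    (P' := fun o x => (u o x + w o x - rs c (insert j s) β o x) ^ 2)
    (P₁ := fun o x => (w o x - rs c {j} β o x) ^ 2) (I.cρ H)
    (fun o x k => by simp [cw o x k, cs_rs H.cβ o x k])
    (fun o x => by rcases hu o with ⟨a, b⟩ | ⟨a, b⟩ <;> simp [rs, a, b, hj])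
    fun o a x => by simp [rs, zw o a x, show ¬c o = j from a]
  have G : Gs F g₀ (fun o => gb (g' o) 1 (Sg w o))
      (fun o i x => v' o i x + Sg (fun o => V o i) o x)
      fun o x => Q' o x + a2 (g' o) (Sg w o) x :=
    { rg := ⟨tr_gb I.gs.rg.tr tW, inv_gb d I.gs.rg.inv (inv_Sg w)⟩
      rv := ⟨I.gs.rv.tr.map₂ (tr_pi fun i => tr_Sg d (tV i) H.hD (cV i)) fun _ a b i => a i + b i,
        fun γ o x => funext fun i => by
          simp only [congrFun (I.gs.rv.inv γ o x) i, inv_Sg _ γ o x]⟩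
      met := fun o => met_g (I.gs.met o) (sW o)
      cc := fun o => (I.gs.cc o).add (cc_Sg d H.hD cV (fun o => (h o).2.1) o)
      rq := ⟨⟨I.gs.rq.tr.map₂ (tr_a2 I.gs.rg.tr tW) fun _ a b => a + b, fun γ o x => by
          simp only [I.gs.rq.inv γ o x, inv_a2 d I.gs.rg.inv (inv_Sg w) γ o x]⟩,
        fun o => CD.add (I.gs.rq.sm o) (sm_a2 (I.gs.met o) (sW o))⟩
      gi := fun o => (I.gs.gi o).step (sW o) }
  refine ⟨_, _, _, fun o x => u o x + w o x, G, I.tu.map₂ tw fun _ a b => a + b,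
    fun o => CD.add (I.su o) (h o).1, fun o a => ?_,
    fun o x a => by simp [I.z2 o x a, ((h o).2.2.2.1 x a).1], fun o x i k => ?_,
    fun o f x => (ip_g_le (I.gs.met o) _ f x).trans (I.mo o f x),
    ⟨min μ μ', lt_min μ0 μ'0, ?_⟩,
    fun o x => (I.le o x).trans (le_add_of_nonneg_right (a2_nonneg (I.gs.met o) (sW o) x)), ?_⟩
  · rw [Finset.mem_insert, not_or] at a
    simp [I.z1 o a.2, ((h o).2.2.1 a.1).1]
  · have sp := Sg_split d H.hD hs sb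
      (P' := fun o x => pd i (fun x => u o x + w o x) x * pd k (fun x => u o x + w o x) x)
      (P := fun o x => pd i (u o) x * pd k (u o) x) (P₁ := fun o x => pd i (w o) x * pd k (w o) x)
      (fun o x a => by simp [cs_pd H.hD (I.cu H) i o x a])
      (fun o x a => by simp [cs_pd H.hD cw i o x a])
      (fun o x => by rcases hu o with ⟨a, b⟩ | ⟨a, b⟩ <;> simp [b, pd_const])
      fun o a x => by simp [((h o).2.2.1 a).1, pd_const]
    simp only [gb, I.eq o x i k, Pi.one_apply, one_pow, one_mul, add_assoc, add_right_inj]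
    revert o x
    refine un_cases (A := {o | c o = j}) (D := D) (fun γ o x a => ?_) (fun o x a => ?_)
      fun o a x b => ?_
    · simpa only [inv_Sg _ γ o x, inv_pd d (inv_Sg w) _ γ o x] using a
    · rw [(sp o x).1 a, pd_zero_of_ev (off cw zw o x a), zero_mul, add_zero]
    · rw [(sp o x).2 a (sb b), pd_congr (on cw zw o a x b), pd_congr (on cw zw o a x b)]
  · refine un_cases (A := {o | c o = j}) (D := D) (fun γ o x a => ?_) (fun o x a => ?_)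
      fun o a x b => ?_
    · simpa only [inv_Sg _ γ o x] using a
    · rw [(sρ o x).1 a]
      linarith [hμ o x, min_le_left μ μ']
    · rw [(sρ o x).2 a (sb b), show rs c {j} β o = β o by simp [rs, show c o = j from a]]
      linarith [((h o).2.2.2.2 a x b _ rfl).1, min_le_right μ μ']
  · rw [Finset.card_insert_of_notMem hj, Nat.cast_succ]
    refine un_cases (A := {o | c o = j}) (D := D) (fun γ o x a => ?_) (fun o x a => ?_)
      fun o a x b => ?_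
    · simpa only [Eg, inv_Sg _ γ o x, inv_Rv d H.gs.toSta γ o x, inv_Rv d G.toSta γ o x,
        inv_ld G.rg.inv γ o x, inv_ld H.gs.rg.inv γ o x, G.rq.inv γ o x, H.gs.rq.inv γ o x,
        H.iq γ o x] using a
    · have z := off cw zw o x a
      rw [(sρ o x).1 a, (H.Es hj o x).1 a, ld_gb (I.gs.met o), lw_zero z, a2_zero z,
        P210U.Rv_of_ev (gb_zero z) (v' := v' o) fun i =>
          (off (cV i) (zV i) o x a).mono fun y k => by simp [k]]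
      linarith [I.cur o x, H.e0, Gy_succ (τ := τ) (θ := θ) (E := Eg g (rs c s β) o x)
        (k := s.card) (y := xf R (Sg (fun o x => (u o x - rs c s β o x) ^ 2) o x)) H.R0 (H.en o x).1]
    · have z := on cw zw o a x b
      obtain ⟨k1, k2⟩ := (h o).2.2.2.2 a x b _ rfl
      rw [(sρ o x).2 a (sb b), (H.Es hj o x).2 a (sb b), ld_gb (I.gs.met o), lw, ww_of_eq rfl z,
        a2_of_ev .rfl z, P210U.Rv_of_ev (gb_congr z) (v' := fun i y => v' o i y + V o i y) fun i =>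
          (on (cV i) (zV i) o a x b).mono fun y k => by simp [k],
        show rs c {j} β o = β o by simp [rs, show c o = j from a]]
      rw [lw] at k2
      linarith [I.cur o x, Gy_step (B := ip (g o) (β o) (β o) x) (Nat.cast_nonneg s.card) H.τ0 H.R0
        H.θ0.le (H.en o x).1 (Sg_nonneg (fun _ _ => sq_nonneg _) o x) (H.E0 (rs c s β) o x)
        (k1.trans_lt (sub_lt_self R μ'0))]

omit H I

/-- **SWP** -/
theorem swp (h : LOC n) : SWP n := by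
  obtain ⟨c₀, c0, hL⟩ := lc_of h
  refine ⟨c₀, c0, fun X Γ _ _ _ d F D hD => ?_⟩
  obtain ⟨D', hD', sb⟩ := exists_compact_superset hD
  obtain ⟨N, c, lc, sep⟩ := colour d F hD'
  refine ⟨N, fun g₀ g v Q β ϖ q τ R θ p e _ G tβ sβ tϖ sϖ τ0 θ0 θ1 p0 e0 hc mem zero col en => ?_⟩
  have cβ : Cs β D := fun o x k => zero o x (one_pos.trans_le (not_lt.1 fun a => k (mem o x a)))
  have H : Hy g₀ g v Q β ϖ (fun o x => max 0 (Eg g β o x - p)) c D D' τ R θ p (e / (N + 1)) c₀ :=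
    ⟨d, hD, hD', sb, lc, sep, G, tβ, sβ, tϖ, sϖ, (tr_Sg d (tr_ip G.rg.tr tβ) hD
      (cs_ip hD cβ g)).map fun _ a => max 0 (a - p), fun γ o x => by simp only [Eg, inv_Sg _ γ o x],
      τ0, θ0, θ1, p0, by positivity, hc, mem, zero, col,
      fun o x => ⟨le_max_left _ _, by linarith [le_max_right 0 (Eg g β o x - p)]⟩⟩
  have R0 := H.R0
  have key : ∀ s : Finset (Fin N), ∃ g' v' Q' u, Sw g₀ g v Q β ϖ
      (fun o x => max 0 (Eg g β o x - p)) c τ R θ (e / (N + 1)) s g' v' Q' u := fun s => by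
    induction s using Finset.induction_on with
    | empty =>
      exact ⟨g, v, Q, fun _ _ => 0, G, tr_const _, fun _ => cd_const, fun _ _ => rfl,
        fun _ _ _ => rfl, by simp [Sg, lb, pd_const], fun _ _ _ => le_rfl,
        ⟨R, R0, by simp [Sg, lb, rs]⟩, fun _ _ => le_rfl,
        by simp [Sg, lb, rs, Eg, Gy, xf, R0.ne', ip_const_left]⟩
    | insert j s hj ih =>
      obtain ⟨g', v', Q', u, I⟩ := ih
      exact I.step H hL hj
  obtain ⟨g', v', Q', u, I⟩ := key Finset.univ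
  obtain ⟨μ, μ0, hμ⟩ := I.lt
  have k := I.cur
  have r : rs c Finset.univ β = β := funext fun o => by simp [rs]
  rw [r] at hμ k
  refine ⟨g', v', Q', u, I.gs, I.tu, I.su, I.z2, fun o x => ⟨I.eq o x, by linarith [hμ o x],
    I.le o x, _, xf_ge (Sg_nonneg (fun _ _ => sq_nonneg _) o x)
      ((hμ o x).trans_lt (sub_lt_self R μ0)), le_trans ?_ (k o x)⟩⟩
  simp only [Gy, Finset.card_univ, Fintype.card_fin]
  generalize xf R _ = y
  have a1 : (1 + 2 * θ) * (τ * y ^ 2) * Eg g β o x ≤ (1 + 2 * θ) * (τ * y ^ 2) * (p + q o x) := by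
    gcongr
    exact (en o x).2
  have a2 : N * (128 * y ^ 2 * max 0 (Eg g β o x - p) / R) ≤ N * (128 * y ^ 2 * q o x / R) := by
    gcongr
    exact max_le (en o x).1 (by linarith [(en o x).2])
  have a3 : N * (e / (N + 1)) ≤ e := by
    rw [← mul_div_assoc, div_le_iff₀ (by positivity)]
    nlinarith
  linarith

end Vale.Agent.P223B
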